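import Vale.Agent.P220Z.Deg.Api

/-!
# The count modulo five: elementary facts
-/

open Set Filter Topology Bornology
open scoped ContDiff

namespace Vale.Agent.P220Z.Deg

set_option linter.unusedSectionVars false

/-- general position for free actions -/
def StGP0 : Prop :=
  ∀ (A W T : Type) [Group A] [Finite A] [NormedAddCommGroup W] [NormedSpace ℝ W]
    [FiniteDimensional ℝ W] [NormedAddCommGroup T] [NormedSpace ℝ T] [FiniteDimensional ℝ T]
    (ac : A → W →L[ℝ] W) (τ : A → T →L[ℝ] T), IsRep ac → IsRep τ → ∀ K : Set W, IsCompact K →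
    (∀ g, ∀ x ∈ K, ac g x ∈ K) → (∀ g, ∀ x ∈ K, ac g x = x → g = 1) → ∀ F : W → T,
    ContinuousOn F K → (∀ g, ∀ x ∈ K, F (ac g x) = τ g (F x)) → ∀ B : Set (W × T), IsClosed B →
    dimH B < Module.finrank ℝ T → ∀ ε > 0,
    ∃ F' : W → T, ContDiff ℝ ∞ F' ∧ (∀ g x, F' (ac g x) = τ g (F' x)) ∧
      (∀ x ∈ K, ‖F' x - F x‖ < ε) ∧ ∀ x ∈ K, (x, F' x) ∉ B

theorem IsRep.pow {A W : Type} [Group A] [NormedAddCommGroup W] [NormedSpace ℝ W]
    {ac : A → W →L[ℝ] W} (h : IsRep ac) (g : A) (n : ℕ) (x : W) :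
    (ac g ^ n) x = ac (g ^ n) x := by
  induction n generalizing x with
  | zero => simp [h.one]
  | succ n ih => rw [pow_succ, pow_succ, h.mul, ← ih]; rfl

theorem exists_margin {X Y : Type} [TopologicalSpace X] [NormedAddCommGroup Y] {K : Set X}
    (hK : IsCompact K) {f : X → Y} (hf : ContinuousOn f K) {C : Set Y} (hC : IsClosed C)
    (h : ∀ x ∈ K, f x ∉ C) : ∃ ε > 0, ∀ x ∈ K, ∀ y, ‖y - f x‖ < ε → y ∉ C := by
  obtain ⟨ε, hε, h1⟩ := (hK.image_of_continuousOn hf).exists_thickening_subset_open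
    hC.isOpen_compl (by rintro _ ⟨x, hx, rfl⟩; exact h x hx)
  exact ⟨ε, hε, fun x hx y hy => h1 (Metric.mem_thickening_iff.2
    ⟨f x, ⟨x, hx, rfl⟩, by rwa [dist_eq_norm]⟩)⟩

theorem norm_seg_left {Y : Type} [NormedAddCommGroup Y] [NormedSpace ℝ Y] {a b : Y} {ε t : ℝ}
    (h : ‖b - a‖ < ε) (ht : t ∈ Icc (0 : ℝ) 1) : ‖(1 - t) • a + t • b - a‖ < ε := by
  have h1 : (1 - t) • a + t • b - a = t • (b - a) := by
    rw [smul_sub, sub_smul, one_smul]
    abel
  rw [h1, norm_smul, Real.norm_of_nonneg ht.1]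
  nlinarith [ht.2, norm_nonneg (b - a)]

theorem norm_seg_move {Y : Type} [NormedAddCommGroup Y] [NormedSpace ℝ Y] {a a' b : Y} {ε t : ℝ}
    (h : ‖a' - a‖ < ε) (ht : t ∈ Icc (0 : ℝ) 1) :
    ‖(1 - t) • a' + t • b - ((1 - t) • a + t • b)‖ < ε := by
  have h1 : (1 - t) • a' + t • b - ((1 - t) • a + t • b) = (1 - t) • (a' - a) := by
    rw [smul_sub]
    abel
  rw [h1, norm_smul, Real.norm_of_nonneg (by linarith [ht.2])]
  nlinarith [ht.1, norm_nonneg (a' - a)]

theorem nonneg_iff {z : ℂ} : (∃ r : ℝ, 0 ≤ r ∧ z = r) ↔ z.im = 0 ∧ 0 ≤ z.re :=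
  ⟨by rintro ⟨r, h, rfl⟩; simpa using h, fun h => ⟨z.re, h.2, Complex.ext rfl (by simp [h.1])⟩⟩

theorem isClosed_nonneg : IsClosed {z : ℂ | ∃ r : ℝ, 0 ≤ r ∧ z = r} := by
  simp only [nonneg_iff]
  exact (isClosed_eq Complex.continuous_im continuous_const).inter
    (isClosed_le continuous_const Complex.continuous_re)

theorem isClosed_rays : IsClosed Rays := isClosed_nonneg.preimage (continuous_pow 5)

theorem ofReal_mem_rays {r : ℝ} (h : 0 ≤ r) : (r : ℂ) ∈ Rays :=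
  ⟨r ^ 5, by positivity, by simp⟩

theorem mul_mem_rays {c z : ℂ} (hc : c ^ 5 = 1) : c * z ∈ Rays ↔ z ∈ Rays := by
  simp [Rays, mul_pow, hc]

variable {ι A W T : Type} [Fintype ι] [Group A] [NormedAddCommGroup W] [NormedSpace ℝ W]
  [NormedAddCommGroup T] [NormedSpace ℝ T]

/-- the real vector `(0, r)` -/
def rv (T : Type) [Zero T] (r : ι → ℝ) : T × (ι → ℂ) := (0, fun i => (r i : ℂ))

theorem continuous_rv : Continuous (rv T : (ι → ℝ) → T × (ι → ℂ)) := by
  unfold rv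
  fun_prop

theorem rv_mem_star {r : ι → ℝ} (h : ∀ i, 0 ≤ r i) : rv T r ∈ Star ι T :=
  ⟨rfl, fun i => ofReal_mem_rays (h i)⟩

theorem rv_mem_face {r : ι → ℝ} (h : ∀ i, 0 ≤ r i) {i : ι} (hi : r i = 0) : rv T r ∈ Face ι T :=
  ⟨rfl, fun k => ⟨r k, h k, rfl⟩, i, by simp [rv, hi]⟩

theorem face_subset_star : Face ι T ⊆ Star ι T := fun y hy =>
  ⟨hy.1, fun i => by
    obtain ⟨r, h1, h2⟩ := hy.2.1 i
    rw [h2]
    exact ofReal_mem_rays h1⟩

theorem isClosed_star : IsClosed (Star ι T) := by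
  have : Star ι T = {y | y.1 = 0} ∩ ⋂ i, {y : T × (ι → ℂ) | y.2 i ∈ Rays} := by
    ext y
    simp [Star]
  rw [this]
  exact (isClosed_eq continuous_fst continuous_const).inter
    (isClosed_iInter fun i => isClosed_rays.preimage (by fun_prop))

theorem isClosed_face : IsClosed (Face ι T) := by
  have : Face ι T = {y | y.1 = 0} ∩
      ((⋂ i, {y : T × (ι → ℂ) | y.2 i ∈ {z : ℂ | ∃ r : ℝ, 0 ≤ r ∧ z = r}}) ∩
        ⋃ i, {y : T × (ι → ℂ) | y.2 i = 0}) := by
    ext y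
    simp [Face]
  rw [this]
  exact (isClosed_eq continuous_fst continuous_const).inter
    ((isClosed_iInter fun i => isClosed_nonneg.preimage (by fun_prop)).inter
      (isClosed_iUnion_of_finite fun i => isClosed_eq (by fun_prop) continuous_const))

theorem isOpen_orth : IsOpen (Orth ι) := by
  have : Orth ι = ⋂ i, {r : ι → ℝ | 0 < r i} := by
    ext r
    simp [Orth]
  rw [this]
  exact isOpen_iInter_of_finite fun i => isOpen_lt continuous_const (continuous_apply i)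

theorem Setup.Th_eq (S : Setup ι A W T) (F : W → T × (ι → ℂ)) (p : (ι → ℝ) × W) :
    S.Th F p = S.e (F p.2 - rv T p.1) := by
  rw [Setup.Th]
  congr 1
  exact Prod.ext (sub_zero _).symm rfl

theorem Setup.Th_zero (S : Setup ι A W T) (F : W → T × (ι → ℂ)) (p : (ι → ℝ) × W) :
    S.Th F p = 0 ↔ F p.2 = rv T p.1 := by
  rw [S.Th_eq, map_eq_zero_iff _ S.e.injective, sub_eq_zero]

theorem Setup.χ_one (S : Setup ι A W T) (i : ι) : S.χ i 1 = 1 := by
  have h1 := S.χ_mul i 1 1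
  have h2 : S.χ i 1 ≠ 0 := fun h => by simpa [h] using S.χ_pow i 1
  rw [one_mul] at h1
  exact (mul_eq_left₀ h2).1 h1.symm

/-- the action on the target as a linear map -/
noncomputable def Setup.actL (S : Setup ι A W T) (g : A) : T × (ι → ℂ) →L[ℝ] T × (ι → ℂ) :=
  (S.τ g).prodMap (ContinuousLinearMap.pi fun i =>
    (ContinuousLinearMap.mul ℝ ℂ (S.χ i g)).comp (ContinuousLinearMap.proj i))

theorem Setup.actL_apply (S : Setup ι A W T) (g : A) (y : T × (ι → ℂ)) :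
    S.actL g y = S.act g y := rfl

theorem Setup.isRep_actL (S : Setup ι A W T) : IsRep S.actL :=
  ⟨fun y => Prod.ext (S.hτ.one y.1) (funext fun i => by
      show S.χ i 1 * y.2 i = y.2 i
      rw [S.χ_one, one_mul]),
    fun g h y => Prod.ext (S.hτ.mul g h y.1) (funext fun i => by
      show S.χ i (g * h) * y.2 i = S.χ i g * (S.χ i h * y.2 i)
      rw [S.χ_mul, mul_assoc])⟩

theorem Setup.act_mem_star (S : Setup ι A W T) (g : A) {y : T × (ι → ℂ)} (h : y ∈ Star ι T) :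
    S.act g y ∈ Star ι T :=
  ⟨by simp [Setup.act, h.1], fun i => (mul_mem_rays (S.χ_pow i g)).2 (h.2 i)⟩

/-- the zero set of `S.Th F` is compact for a generic germ -/
theorem Setup.germ_Th (S : Setup ι A W T) {O : Set W} {F : W → T × (ι → ℂ)} (hO : IsOpen O)
    (hF : ContinuousOn F O) (hc : IsCompact {x | x ∈ O ∧ F x ∈ Star ι T})
    (hg : ∀ x ∈ O, F x ∉ Face ι T) : Germ (Orth ι ×ˢ O) (S.Th F) := by
  refine ⟨isOpen_orth.prod hO, ?_, ?_⟩
  · rw [show S.Th F = fun p => S.e (F p.2 - rv T p.1) from funext (S.Th_eq F)]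
    exact S.e.continuous.comp_continuousOn ((hF.comp continuousOn_snd fun _ hp => hp.2).sub
      (continuous_rv.comp continuous_fst).continuousOn)
  · set Z := {x | x ∈ O ∧ F x ∈ Star ι T} with hZ
    have h0 : ContinuousOn F Z := hF.mono fun x hx => hx.1
    have h1 : IsClosed {y : T × (ι → ℂ) | ∀ i, ∃ r : ℝ, 0 ≤ r ∧ y.2 i = r} := by
      rw [ofPred_forall]
      exact isClosed_iInter fun i => isClosed_nonneg.preimage
        (f := fun y : T × (ι → ℂ) => y.2 i) (by fun_prop)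
    have h2 := hc.of_isClosed_subset (h0.preimage_isClosed_of_isClosed hc.isClosed h1)
      inter_subset_left
    have h3 : ContinuousOn (fun x => ((fun i => ((F x).2 i).re, x) : (ι → ℝ) × W)) Z :=
      ((show Continuous fun y : T × (ι → ℂ) => fun i => (y.2 i).re by
        fun_prop).comp_continuousOn h0).prodMk continuousOn_id
    refine (Set.ext fun ⟨r, x⟩ => ?_ : {x | x ∈ Orth ι ×ˢ O ∧ S.Th F x = 0} = _) ▸
      h2.image_of_continuousOn (h3.mono inter_subset_left)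
    constructor
    · rintro ⟨⟨h4, h5⟩, h6⟩
      rw [S.Th_zero] at h6
      have h7 : F x = rv T r := h6
      refine ⟨x, ⟨⟨h5, ?_⟩, fun i => ⟨r i, (h4 i).le, by rw [h7]; rfl⟩⟩, ?_⟩
      · rw [h7]
        exact rv_mem_star fun i => (h4 i).le
      · simp [h7, rv]
    · rintro ⟨y, ⟨⟨h4, h5⟩, h6⟩, h7⟩
      obtain ⟨rfl, rfl⟩ := Prod.mk.inj h7
      have h8 : F y = rv T fun i => ((F y).2 i).re := Prod.ext h5.1 (funext fun i => by
        obtain ⟨s, -, hs⟩ := h6 i
        simp [rv, hs])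
      refine ⟨⟨fun i => ?_, h4⟩, (S.Th_zero F _).2 h8⟩
      refine lt_of_le_of_ne (nonneg_iff.1 (h6 i)).2 fun h0 => hg y h4 ?_
      rw [h8]
      exact rv_mem_face (fun k => (nonneg_iff.1 (h6 k)).2) h0.symm

/-- real vectors with at least `n` vanishing coordinates -/
def Bad (X ι T : Type) [Fintype ι] [Zero T] (n : ℕ) : Set (X × (T × (ι → ℂ))) :=
  ⋃ s : {s : Finset ι // s.card + n ≤ Fintype.card ι},
    {p | p.2.1 = 0 ∧ (∀ k, (p.2.2 k).im = 0) ∧ ∀ k, k ∉ s.1 → p.2.2 k = 0}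

theorem isClosed_bad {X : Type} [TopologicalSpace X] (n : ℕ) : IsClosed (Bad X ι T n) := by
  refine isClosed_iUnion_of_finite fun s => ?_
  simp only [ofPred_and, ofPred_forall]
  exact (isClosed_eq (by fun_prop) continuous_const).inter
    ((isClosed_iInter fun k => isClosed_eq (by fun_prop) continuous_const).inter
      (isClosed_iInter fun k => isClosed_iInter fun _ =>
        isClosed_eq (by fun_prop) continuous_const))

theorem rv_mem_bad {X : Type} (x : X) {r : ι → ℝ} {n : ℕ} (s : Finset ι) (hs : n ≤ s.card)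
    (h : ∀ k ∈ s, r k = 0) : (x, rv T r) ∈ Bad X ι T n := by
  classical
  refine mem_iUnion.2 ⟨⟨sᶜ, ?_⟩, rfl, fun k => by simp [rv], fun k hk => ?_⟩
  · have := Finset.card_compl_add_card s
    omega
  · simp [rv, h k (by simpa using hk)]

theorem dimH_bad [FiniteDimensional ℝ W] [FiniteDimensional ℝ T] (S : Setup ι A W T) {X : Type}
    [NormedAddCommGroup X] [NormedSpace ℝ X] [FiniteDimensional ℝ X] {n : ℕ}
    (h : Module.finrank ℝ X < Module.finrank ℝ W + n)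
    (hp : 0 < Module.finrank ℝ (T × (ι → ℂ))) :
    dimH (Bad X ι T n) < Module.finrank ℝ (T × (ι → ℂ)) := by
  classical
  have h1 : Module.finrank ℝ (T × (ι → ℂ)) = Fintype.card ι + Module.finrank ℝ W := by
    rw [S.e.toLinearEquiv.finrank_eq]
    simp
  rw [Bad, dimH_iUnion]
  rcases isEmpty_or_nonempty {s : Finset ι // s.card + n ≤ Fintype.card ι} with h0 | h0
  · rw [iSup_of_empty, ENNReal.bot_eq_zero]
    exact_mod_cast hp
  obtain ⟨s, hs⟩ := Finite.exists_max fun s : {s : Finset ι // s.card + n ≤ Fintype.card ι} =>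
    dimH {p : X × (T × (ι → ℂ)) | p.2.1 = 0 ∧ (∀ k, (p.2.2 k).im = 0) ∧ ∀ k, k ∉ s.1 → p.2.2 k = 0}
  refine (iSup_le hs).trans_lt ?_
  set Λ : X × (s.1 → ℝ) → X × (T × (ι → ℂ)) :=
    fun q => (q.1, 0, fun k => if h : k ∈ s.1 then (q.2 ⟨k, h⟩ : ℂ) else 0) with hΛ
  have h2 : ContDiff ℝ 1 Λ := by
    refine contDiff_fst.prodMk (contDiff_const.prodMk (contDiff_pi.2 fun k => ?_))
    split_ifs with hk
    · exact Complex.ofRealCLM.contDiff.comp ((contDiff_apply ℝ ℝ _).comp contDiff_snd)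
    · exact contDiff_const
  refine ((dimH_mono ?_).trans h2.dimH_range_le).trans_lt ?_
  · rintro ⟨x, y, z⟩ ⟨h3, h4, h5⟩
    refine ⟨(x, fun k => (z k).re), Prod.ext rfl (Prod.ext h3.symm (funext fun k => ?_))⟩
    simp only [hΛ]
    split_ifs with hk
    · exact Complex.ext rfl (h4 k).symm
    · exact (h5 k hk).symm
  · have h6 := s.2
    rw [h1, Module.finrank_prod, Module.finrank_fintype_fun_eq_card, Fintype.card_coe]
    exact_mod_cast (by omega)

theorem gp_bad [Finite A] [FiniteDimensional ℝ W] [FiniteDimensional ℝ T] (hG : StGP0)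
    (S : Setup ι A W T) {X : Type} [NormedAddCommGroup X] [NormedSpace ℝ X]
    [FiniteDimensional ℝ X] {ac : A → X →L[ℝ] X} (hac : IsRep ac) {K : Set X} (hK : IsCompact K)
    (hi : ∀ g, ∀ x ∈ K, ac g x ∈ K) (hf : ∀ g, ∀ x ∈ K, ac g x = x → g = 1)
    {F : X → T × (ι → ℂ)} (hF : ContinuousOn F K) (he : ∀ g, ∀ x ∈ K, F (ac g x) = S.act g (F x))
    {n : ℕ} (hn : 0 < n) (h : Module.finrank ℝ X < Module.finrank ℝ W + n) {ε : ℝ} (hε : 0 < ε) :
    ∃ F' : X → T × (ι → ℂ), ContDiff ℝ ∞ F' ∧ (∀ g x, F' (ac g x) = S.act g (F' x)) ∧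
      (∀ x ∈ K, ‖F' x - F x‖ < ε) ∧ ∀ x ∈ K, (x, F' x) ∉ Bad X ι T n := by
  rcases Nat.eq_zero_or_pos (Module.finrank ℝ (T × (ι → ℂ))) with h0 | h0
  · have h1 : Subsingleton (T × (ι → ℂ)) := Module.finrank_zero_iff.1 h0
    refine ⟨fun _ => 0, contDiff_const, fun _ _ => Subsingleton.elim _ _, fun x _ => ?_,
      fun x _ hx => ?_⟩
    · rwa [Subsingleton.elim (0 - F x) 0, norm_zero]
    · obtain ⟨s, -⟩ := mem_iUnion.1 hx
      have h2 := s.2
      rw [S.e.toLinearEquiv.finrank_eq] at h0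
      simp only [Module.finrank_prod, Module.finrank_fintype_fun_eq_card] at h0
      omega
  · exact hG A X _ ac S.actL hac S.isRep_actL K hK hi hf F hF he _ (isClosed_bad n)
      (dimH_bad S h h0) ε hε

end Vale.Agent.P220Z.Deg
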