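import Vale.Agent.P220Z.Deg.Defs

/-!
# The degree of a free equivariant map for a group of order five is divisible by five
-/

open Set Filter Topology Bornology
open scoped ContDiff

namespace Vale.Agent.P220Z.Deg

open Vale.Agent.P205.TI.Deg

namespace DivA

variable {X : Type} [NormedAddCommGroup X] [NormedSpace ℝ X]

/-- the powers of a map of order five -/
noncomputable def pw (a : X →L[ℝ] X) (k : ZMod 5) : X →L[ℝ] X := a ^ k.val

variable {a b : X →L[ℝ] X}

theorem pw_zero (x : X) : pw a 0 x = x := rfl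

theorem pw_add (h : a ^ 5 = 1) (i j : ZMod 5) (x : X) : pw a (i + j) x = pw a i (pw a j x) := by
  rw [pw, ZMod.val_add, ← pow_eq_pow_mod _ h, pow_add]
  rfl

theorem pw_rep (h : a ^ 5 = 1) :
    IsRep fun g : Multiplicative (ZMod 5) => pw a (Multiplicative.toAdd g) :=
  ⟨fun _ => rfl, fun _ _ x => pw_add h _ _ x⟩

theorem pw_free (h : a ^ 5 = 1) {k : ZMod 5} {x : X} (hk : k ≠ 0) (hx : pw a k x = x) :
    a x = x := by
  obtain ⟨m, hm⟩ := (by decide : ∀ k : ZMod 5, k ≠ 0 → ∃ m : Fin 5, k.val * m.val % 5 = 1) k hk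
  have h1 : ∀ n : ℕ, (a ^ (k.val * n)) x = x := fun n => by
    induction n with
    | zero => rfl
    | succ n ih =>
      rw [Nat.mul_succ, pow_add]
      exact (congrArg (a ^ (k.val * n)) hx).trans ih
  have h2 := h1 m.val
  rwa [pow_eq_pow_mod _ h, hm, pow_one] at h2

theorem pw_mem {O : Set X} (h : ∀ x ∈ O, a x ∈ O) (k : ZMod 5) : ∀ x ∈ O, pw a k x ∈ O := by
  rw [pw]
  induction k.val with
  | zero => exact fun _ hx => hx
  | succ n ih =>
    rw [pow_succ']
    exact fun x hx => h _ (ih x hx)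

theorem pw_equi {O : Set X} {f : X → X} (h : ∀ x ∈ O, a x ∈ O)
    (hf : ∀ x ∈ O, f (a x) = b (f x)) (k : ZMod 5) : ∀ x ∈ O, f (pw a k x) = pw b k (f x) := by
  rw [pw, pw]
  induction k.val with
  | zero => exact fun _ _ => rfl
  | succ n ih =>
    rw [pow_succ, pow_succ]
    exact fun x hx => (ih _ (h x hx)).trans (congrArg (b ^ n) (hf x hx))

/-- the powers as equivalences -/
noncomputable def eqv (h : a ^ 5 = 1) (k : ZMod 5) : X ≃L[ℝ] X :=
  ContinuousLinearEquiv.equivOfInverse (pw a k) (pw a (-k))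
    (fun x => by rw [← pw_add h, neg_add_cancel, pw_zero])
    fun x => by rw [← pw_add h, add_neg_cancel, pw_zero]

theorem det_pw (h : a ^ 5 = 1) (k : ZMod 5) : (pw a k).det = 1 := by
  have h1 : a.det ^ 5 = 1 := by
    rw [← map_pow, ← ContinuousLinearMap.toLinearMap_pow, h]
    exact map_one _
  have h2 : a.det = 1 := (Odd.pow_inj (by decide : Odd 5)).1 (by rw [h1, one_pow])
  rw [pw, ContinuousLinearMap.det, ContinuousLinearMap.toLinearMap_pow, map_pow,
    show LinearMap.det (a : X →ₗ[ℝ] X) = 1 from h2, one_pow]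

theorem dim_wall [FiniteDimensional ℝ X] {m : X →L[ℝ] ℝ} {x : X} (hx : m x ≠ 0) :
    dimH {p : X × X | m p.1 = 0 ∧ p.2 = 0} < Module.finrank ℝ X := by
  have h1 : Module.finrank ℝ (LinearMap.ker (m : X →ₗ[ℝ] ℝ)) < Module.finrank ℝ X :=
    Submodule.finrank_lt fun h => hx (by
      have : x ∈ LinearMap.ker (m : X →ₗ[ℝ] ℝ) := h ▸ Submodule.mem_top
      exact this)
  have h2 := ContDiff.dimH_range_le
    (f := fun v : LinearMap.ker (m : X →ₗ[ℝ] ℝ) => ((v : X), (0 : X)))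
    ((LinearMap.ker (m : X →ₗ[ℝ] ℝ)).subtypeL.contDiff.prodMk contDiff_const)
  refine lt_of_le_of_lt (le_trans (dimH_mono ?_) h2) (by exact_mod_cast h1)
  rintro ⟨y, z⟩ ⟨hy, rfl⟩
  exact ⟨⟨y, hy⟩, rfl⟩

end DivA

open DivA in
theorem stDiv (hG : StGP) (hL : StLin) : StDiv := by
  intro X _ _ _ a b ha hb O f hf hO hfree heq
  rcases O.eq_empty_or_nonempty with rfl | ⟨x₀, hx₀⟩
  · rw [pdeg_empty hf.isOpen hf.cont fun x hx => hx.elim]
    exact dvd_zero _
  obtain ⟨W₀, hW₀⟩ := hf.exists_nbh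
  obtain ⟨W, hW, hWi⟩ : ∃ W, Nbh O f W ∧ ∀ k, ∀ x ∈ W, pw a k x ∈ W := by
    have h0 : ⋂ k, pw a k ⁻¹' W₀ ⊆ W₀ := fun x hx => mem_iInter.1 hx 0
    refine ⟨⋂ k, pw a k ⁻¹' W₀, ⟨isOpen_iInter_of_finite fun k =>
      hW₀.isOpen.preimage (pw a k).continuous, hW₀.bdd.subset h0,
      (closure_mono h0).trans hW₀.sub, fun x hx h => mem_iInter.2 fun k =>
        hW₀.zero _ (pw_mem hO k x hx) (by rw [pw_equi hO heq k x hx, h, map_zero])⟩,
      fun k x hx => mem_iInter.2 fun j => ?_⟩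
    rw [mem_preimage, ← pw_add ha]
    exact mem_iInter.1 hx _
  obtain ⟨l₀, hl₀⟩ := Module.exists_dual_forall_apply_ne_zero (K := ℝ)
    (fun q : {q : ZMod 5 × ZMod 5 // q.1 ≠ q.2} => pw a q.1.1 x₀ - pw a q.1.2 x₀) (fun q h => by
      refine hfree x₀ hx₀ (pw_free ha (k := -q.1.2 + q.1.1) (fun h0 => q.2 ?_) ?_)
      · exact (neg_add_eq_zero.1 h0).symm
      · rw [pw_add ha, sub_eq_zero.1 h, ← pw_add ha, neg_add_cancel, pw_zero])
  let l : X →L[ℝ] ℝ := LinearMap.toContinuousLinearMap l₀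
  obtain ⟨m, hm, hm'⟩ := exists_lower (compact_frontier hW.bdd)
    (hf.cont.mono (frontier_subset_closure.trans hW.sub)) fun x hx => hW.ne hx
  obtain ⟨g, hg, hge, hgf, hgB⟩ := hG (Multiplicative (ZMod 5)) X X _ _ (pw_rep ha) (pw_rep hb)
    (closure W) (compact_closure hW.bdd)
    (fun k => MapsTo.closure (hWi _) (pw a _).continuous)
    (fun k x hx h => by
      by_contra hk
      exact hfree x (hW.sub hx) (pw_free ha hk h)) f (hf.cont.mono hW.sub)
    (fun k x hx => pw_equi hO heq _ x (hW.sub hx))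
    (⋃ q : {q : ZMod 5 × ZMod 5 // q.1 ≠ q.2},
      {p : X × X | (l.comp (pw a q.1.1 - pw a q.1.2)) p.1 = 0 ∧ p.2 = 0})
    (isClosed_iUnion_of_finite fun q => (isClosed_eq (by fun_prop) continuous_const).inter
      (isClosed_eq continuous_snd continuous_const))
    (fun k p hp => by
      obtain ⟨q, h1, h2⟩ := mem_iUnion.1 hp
      refine mem_iUnion.2 ⟨⟨(q.1.1 - k.toAdd, q.1.2 - k.toAdd), fun h => q.2 (sub_left_inj.1 h)⟩,
        ?_, by simp [h2]⟩
      show l (pw a (q.1.1 - k.toAdd) (pw a k.toAdd p.1) -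
        pw a (q.1.2 - k.toAdd) (pw a k.toAdd p.1)) = 0
      rw [← pw_add ha, ← pw_add ha, sub_add_cancel, sub_add_cancel]
      exact h1)
    (by
      rw [dimH_iUnion]
      have : Nonempty {q : ZMod 5 × ZMod 5 // q.1 ≠ q.2} := ⟨⟨(0, 1), by decide⟩⟩
      obtain ⟨q, hq⟩ := exists_eq_ciSup_of_finite (f := fun q : {q : ZMod 5 × ZMod 5 // q.1 ≠ q.2} =>
        dimH {p : X × X | (l.comp (pw a q.1.1 - pw a q.1.2)) p.1 = 0 ∧ p.2 = 0})
      rw [← hq]
      exact dim_wall (x := x₀) (hl₀ q)) m hm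
  have hlt : ∀ x ∈ frontier W, ‖g x - f x‖ < ‖f x‖ := fun x hx =>
    (hgf x (frontier_subset_closure hx)).trans_le (hm' x hx)
  have hgc := hg.continuous
  have hN : Nbh (W ∪ {x | g x ≠ 0}) g W := ⟨hW.isOpen, hW.bdd, fun x hx => by
    by_cases h : x ∈ W
    · exact Or.inl h
    · refine Or.inr fun h0 => ?_
      have := hlt x (by rw [hW.isOpen.frontier_eq]; exact ⟨hx, h⟩)
      rw [h0, zero_sub, norm_neg] at this
      exact lt_irrefl _ this, fun x hx h0 => hx.resolve_right fun h => h h0⟩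
  have hG' : Germ (W ∪ {x | g x ≠ 0}) g := ⟨hW.isOpen.union (isOpen_ne_fun hgc continuous_const),
    hgc.continuousOn, by
      convert (compact_closure hW.bdd).inter_right (isClosed_eq hgc continuous_const) using 1
      exact Set.ext fun x => ⟨fun hx => ⟨subset_closure (hN.zero x hx.1 hx.2), hx.2⟩,
        fun hx => ⟨hN.sub hx.1, hx.2⟩⟩⟩
  let U : ZMod 5 → Set X := fun j => W ∩ ⋂ i : {i // i ≠ j}, {x | l (pw a i x) < l (pw a j x)}
  have hU : ∀ j x, x ∈ U j ↔ x ∈ W ∧ ∀ i, i ≠ j → l (pw a i x) < l (pw a j x) := fun j x => by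
    simp only [U, mem_inter_iff, mem_iInter, mem_ofPred_eq, Subtype.forall]
  have hUo : ∀ j, IsOpen (U j) := fun j => hW.isOpen.inter
    (isOpen_iInter_of_finite fun i => isOpen_lt (by fun_prop) (by fun_prop))
  have hUW : ∀ j, U j ⊆ W ∪ {x | g x ≠ 0} := fun j x hx => Or.inl hx.1
  have hd : ((Finset.univ : Finset (ZMod 5)) : Set (ZMod 5)).PairwiseDisjoint U :=
    fun i _ j _ hij => Set.disjoint_left.2 fun x hi hj =>
      lt_asymm (((hU i x).1 hi).2 j hij.symm) (((hU j x).1 hj).2 i hij)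
  have hz : ∀ x ∈ W ∪ {x | g x ≠ 0}, g x = 0 → ∃ j ∈ (Finset.univ : Finset (ZMod 5)), x ∈ U j := by
    intro x hx h0
    have hxW := hN.zero x hx h0
    obtain ⟨j, hj⟩ := Finite.exists_max fun j : ZMod 5 => l (pw a j x)
    refine ⟨j, Finset.mem_univ _, (hU j x).2 ⟨hxW, fun i hi => lt_of_le_of_ne (hj i) fun h => ?_⟩⟩
    refine hgB x (subset_closure hxW) (mem_iUnion.2 ⟨⟨(i, j), hi⟩, ?_, h0⟩)
    show l (pw a i x - pw a j x) = 0
    rw [map_sub, h, sub_self]
  have key : ∀ k, pdeg (U k) g = pdeg (U 0) g := fun k => by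
    have h1 := hL X X (eqv hb (-k)) (eqv ha k) (U 0) g
      (hG'.piece (s := ((Finset.univ : Finset (ZMod 5)) : Set (ZMod 5))) (fun j _ => hUo j)
        (fun j _ => hUW j) hd hz (Finset.mem_univ _))
    have h2 : eqv ha k ⁻¹' U 0 = U k := by
      ext x
      show pw a k x ∈ U 0 ↔ _
      rw [hU, hU]
      simp only [← pw_add ha, zero_add]
      refine and_congr ⟨fun h => ?_, hWi k x⟩ ⟨fun h i hi => ?_, fun h i hi => h _ (by simpa)⟩
      · have := hWi (-k) _ h
        rwa [← pw_add ha, neg_add_cancel, pw_zero] at this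
      · simpa using h (i - k) (sub_ne_zero.2 hi)
    have h3 : (fun y => eqv hb (-k) (g (eqv ha k y))) = g := funext fun y => by
      show pw b (-k) (g (pw a k y)) = _
      rw [show g (pw a k y) = pw b k (g y) from hge (Multiplicative.ofAdd k) y, ← pw_add hb,
        neg_add_cancel, pw_zero]
    have h4 : (((eqv ha k : X ≃L[ℝ] X) : X →L[ℝ] X).comp
        ((eqv hb (-k) : X ≃L[ℝ] X) : X →L[ℝ] X)).det = 1 := by
      show LinearMap.det ((pw a k : X →ₗ[ℝ] X) ∘ₗ (pw b (-k) : X →ₗ[ℝ] X)) = 1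
      rw [LinearMap.det_comp, show LinearMap.det (pw a k : X →ₗ[ℝ] X) = 1 from det_pw ha k,
        show LinearMap.det (pw b (-k) : X →ₗ[ℝ] X) = 1 from det_pw hb _, one_mul]
    rwa [h2, h3, h4, sg_pos one_pos, one_mul] at h1
  rw [pdeg_seg hf.cont hG'.cont hW hN fun x hx t ht => seg_ne (hlt x hx) ht,
    pdeg_sum hG' Finset.univ (fun j _ => hUo j) (fun j _ => hUW j) hd hz,
    Finset.sum_congr rfl fun k _ => key k, Finset.sum_const, Finset.card_univ, ZMod.card,
    nsmul_eq_mul]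
  exact Dvd.intro _ rfl

end Vale.Agent.P220Z.Deg
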