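import Vale.Agent.P220Z.Deg.Defs

/-!
# General position for free actions of a finite group
-/

open Set Filter Topology Metric
open scoped ContDiff

namespace Vale.Agent.P220Z.Deg

namespace GPa

variable {A W T : Type} [Group A] [Fintype A] [NormedAddCommGroup W] [NormedSpace ℝ W]
  [NormedAddCommGroup T] [NormedSpace ℝ T] {ac : A → W →L[ℝ] W} {τ : A → T →L[ℝ] T}

/-- the sum of the translates of a map -/
noncomputable def sm (ac : A → W →L[ℝ] W) (τ : A → T →L[ℝ] T) (G : W → T) (y : W) : T :=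
  ∑ g, τ g (G (ac g⁻¹ y))

theorem sm_equi (hac : IsRep ac) (hτ : IsRep τ) (G : W → T) (h : A) (y : W) :
    sm ac τ G (ac h y) = τ h (sm ac τ G y) := by
  unfold sm
  rw [map_sum, ← Equiv.sum_comp (Equiv.mulLeft h)]
  refine Finset.sum_congr rfl fun g _ => ?_
  rw [Equiv.coe_mulLeft, hτ.mul, ← hac.mul, mul_inv_rev, inv_mul_cancel_right]

theorem sm_smooth {G : W → T} (hG : ContDiff ℝ ∞ G) : ContDiff ℝ ∞ (sm ac τ G) :=
  ContDiff.sum fun g _ => (τ g).contDiff.comp (hG.comp (ac g⁻¹).contDiff)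

theorem norm_sm_le {G : W → T} {y : W} {η : ℝ} (h : ∀ g, ‖G (ac g y)‖ ≤ η) :
    ‖sm ac τ G y‖ ≤ (∑ g, ‖τ g‖) * η := by
  unfold sm
  rw [Finset.sum_mul]
  exact (norm_sum_le _ _).trans (Finset.sum_le_sum fun g _ =>
    ((τ g).le_opNorm _).trans (mul_le_mul_of_nonneg_left (h _) (norm_nonneg _)))

theorem exists_small (M : ℝ) (hM : 0 ≤ M) {ε : ℝ} (hε : 0 < ε) : ∃ η > 0, M * η < ε := by
  refine ⟨ε / (M + 1), by positivity, ?_⟩
  rw [← mul_div_assoc, div_lt_iff₀ (by positivity)]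
  nlinarith

/-- a point with trivial isotropy has a ball that is disjoint from its translates -/
theorem exists_ball {x : W} (hx : ∀ g, ac g x = x → g = 1) :
    ∃ r > 0, ∀ g, ∀ y ∈ ball x (2 * r), ac g y ∈ ball x (2 * r) → g = 1 := by
  have h1 : ∀ g : A, ∀ᶠ p in 𝓝 ((x, x) : W × W), ac g p.1 = p.2 → g = 1 := fun g => by
    by_cases hg : g = 1
    · exact Eventually.of_forall fun _ _ => hg
    · have hc : ContinuousAt (fun p : W × W => ac g p.1 - p.2) (x, x) := by fun_prop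
      have hne : ac g x - x ≠ 0 := fun h => hg (hx g (sub_eq_zero.1 h))
      filter_upwards [hc.eventually_ne hne] with p hp h
      exact absurd (sub_eq_zero.2 h) hp
  obtain ⟨δ, hδ, h2⟩ := Metric.eventually_nhds_iff_ball.1 (eventually_all.2 h1)
  refine ⟨δ / 2, by positivity, fun g y hy hgy => h2 (y, ac g y) ?_ g rfl⟩
  rw [show 2 * (δ / 2) = δ by ring] at hy hgy
  rw [← ball_prod_same]
  exact ⟨hy, hgy⟩

variable [FiniteDimensional ℝ W] [FiniteDimensional ℝ T]

/-- smooth equivariant approximation -/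
theorem exists_approx (hac : IsRep ac) (hτ : IsRep τ) {K : Set W}
    (hK : IsCompact K) (hKa : ∀ g, ∀ x ∈ K, ac g x ∈ K) {F : W → T} (hF : ContinuousOn F K)
    (hFe : ∀ g, ∀ x ∈ K, F (ac g x) = τ g (F x)) {ε : ℝ} (hε : 0 < ε) :
    ∃ G : W → T, ContDiff ℝ ∞ G ∧ (∀ g x, G (ac g x) = τ g (G x)) ∧ ∀ x ∈ K, ‖G x - F x‖ < ε := by
  obtain ⟨η, hη, hM⟩ := exists_small (∑ g, ‖τ g‖) (Finset.sum_nonneg fun _ _ => norm_nonneg _) hε
  obtain ⟨G₀, hG₀, hc⟩ := exists_smooth hK hF hη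
  have hN : (1 : ℝ) ≤ Fintype.card A := by exact_mod_cast Fintype.card_pos
  have hN0 : (0 : ℝ) < Fintype.card A := by linarith
  refine ⟨fun y => (Fintype.card A : ℝ)⁻¹ • sm ac τ G₀ y, (sm_smooth hG₀).const_smul _,
    fun g x => by simp only [sm_equi hac hτ, map_smul], fun x hx => ?_⟩
  have h1 : sm ac τ F x = (Fintype.card A : ℝ) • F x := by
    unfold sm
    rw [Finset.sum_congr rfl fun g _ => by rw [hFe g⁻¹ x hx, ← hτ.mul, mul_inv_cancel, hτ.one],
      Finset.sum_const, Finset.card_univ, Nat.cast_smul_eq_nsmul]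
  have h2 : (Fintype.card A : ℝ)⁻¹ • sm ac τ G₀ x - F x =
      (Fintype.card A : ℝ)⁻¹ • sm ac τ (fun y => G₀ y - F y) x := by
    have : sm ac τ (fun y => G₀ y - F y) x = sm ac τ G₀ x - sm ac τ F x := by
      unfold sm
      simp only [map_sub, Finset.sum_sub_distrib]
    rw [this, h1, smul_sub, smul_smul, inv_mul_cancel₀ hN0.ne', one_smul]
  have h3 : ‖sm ac τ (fun y => G₀ y - F y) x‖ ≤ (∑ g, ‖τ g‖) * η :=
    norm_sm_le fun g => (hc _ (hKa g x hx)).le
  have h4 : (Fintype.card A : ℝ)⁻¹ ≤ 1 := inv_le_one_of_one_le₀ hN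
  rw [h2, norm_smul, Real.norm_of_nonneg (inv_pos.2 hN0).le]
  exact ((mul_le_of_le_one_left (norm_nonneg _) h4).trans h3).trans_lt hM

/-- one more ball -/
theorem step (hac : IsRep ac) (hτ : IsRep τ) {B : Set (W × T)} (hB : IsClosed B)
    (hd : dimH B < Module.finrank ℝ T) {F : W → T} (hF : ContDiff ℝ ∞ F)
    (hFe : ∀ g x, F (ac g x) = τ g (F x)) {C : Set W} (hC : IsCompact C)
    (hCB : ∀ y ∈ C, (y, F y) ∉ B) {x : W} {r : ℝ} (hr : 0 < r)
    (hx : ∀ g, ∀ y ∈ ball x (2 * r), ac g y ∈ ball x (2 * r) → g = 1) {ε : ℝ} (hε : 0 < ε) :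
    ∃ F' : W → T, ContDiff ℝ ∞ F' ∧ (∀ g x, F' (ac g x) = τ g (F' x)) ∧
      (∀ y, ‖F' y - F y‖ < ε) ∧ ∀ y ∈ C ∪ closedBall x r, (y, F' y) ∉ B := by
  classical
  let β : ContDiffBump x := ⟨r, 2 * r, hr, by linarith⟩
  have hΓ : IsCompact ((fun y => (y, F y)) '' C) :=
    hC.image (continuous_id.prodMk hF.continuous)
  obtain ⟨δ, hδ, hth⟩ := hΓ.exists_thickening_subset_open hB.isOpen_compl
    (by rintro _ ⟨y, hy, rfl⟩; exact hCB y hy)
  obtain ⟨η, hη, hM⟩ := exists_small (∑ g, ‖τ g‖) (Finset.sum_nonneg fun _ _ => norm_nonneg _)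
    (lt_min hε hδ)
  have hφ : ContDiff ℝ 1 fun p : W × T => p.2 - F p.1 :=
    contDiff_snd.sub ((hF.of_le (by norm_cast)).comp contDiff_fst)
  have hden : Dense ((fun p : W × T => p.2 - F p.1) '' B)ᶜ :=
    dense_compl_of_dimH_lt_finrank
      ((hφ.contDiffOn.dimH_image_le convex_univ (subset_univ B)).trans_lt hd)
  obtain ⟨c, hc, hcη⟩ := hden.exists_mem_open (U := ball (0 : T) η) isOpen_ball
    (nonempty_ball.2 hη)
  have hP : ∀ y, ‖sm ac τ (fun y => β y • c) y‖ < min ε δ := fun y =>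
    (norm_sm_le fun g => by
      rw [norm_smul, Real.norm_of_nonneg β.nonneg]
      exact (mul_le_of_le_one_left (norm_nonneg _) β.le_one).trans
        (mem_ball_zero_iff.1 hcη).le).trans_lt hM
  refine ⟨fun y => F y + sm ac τ (fun y => β y • c) y,
    hF.add (sm_smooth (β.contDiff.smul contDiff_const)),
    fun g y => by simp only [hFe, sm_equi hac hτ, map_add], fun y => ?_, ?_⟩
  · rw [add_sub_cancel_left]
    exact (hP y).trans_le (min_le_left _ _)
  · rintro y (hy | hy)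
    · refine hth (mem_thickening_iff.2 ⟨(y, F y), mem_image_of_mem _ hy, ?_⟩)
      rw [Prod.dist_eq, dist_self, dist_eq_norm, add_sub_cancel_left]
      exact max_lt hδ ((hP y).trans_le (min_le_right _ _))
    · have h1 : sm ac τ (fun y => β y • c) y = c := by
        unfold sm
        rw [Finset.sum_eq_single 1 (fun g _ hg => ?_) fun h => absurd (Finset.mem_univ _) h]
        · have h3 : β y = 1 := β.one_of_mem_closedBall hy
          simp only [inv_one, hac.one, hτ.one, h3, one_smul]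
        · have h2 : β (ac g⁻¹ y) = 0 := by
            refine β.zero_of_le_dist (not_lt.1 fun h => hg ?_)
            exact inv_eq_one.1 (hx g⁻¹ y (closedBall_subset_ball (by linarith) hy) h)
          simp only [h2, zero_smul, map_zero]
      intro h
      refine hc ⟨_, h, ?_⟩
      simp only [h1, add_sub_cancel_left]

/-- finitely many balls -/
theorem steps (hac : IsRep ac) (hτ : IsRep τ) {B : Set (W × T)} (hB : IsClosed B)
    (hd : dimH B < Module.finrank ℝ T) {F : W → T} (hF : ContDiff ℝ ∞ F)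
    (hFe : ∀ g x, F (ac g x) = τ g (F x)) (r : W → ℝ) (s : Finset W)
    (hs : ∀ x ∈ s, 0 < r x ∧ ∀ g, ∀ y ∈ ball x (2 * r x), ac g y ∈ ball x (2 * r x) → g = 1)
    {ε : ℝ} (hε : 0 < ε) :
    ∃ F' : W → T, ContDiff ℝ ∞ F' ∧ (∀ g x, F' (ac g x) = τ g (F' x)) ∧
      (∀ y, ‖F' y - F y‖ < ε) ∧ ∀ y ∈ ⋃ x ∈ s, closedBall x (r x), (y, F' y) ∉ B := by
  classical
  induction s using Finset.induction_on generalizing ε with
  | empty => exact ⟨F, hF, hFe, fun y => by simpa using hε, fun y hy => by simp at hy⟩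
  | insert x s _ ih =>
    obtain ⟨F₁, h1, h2, h3, h4⟩ := ih (fun z hz => hs z (Finset.mem_insert_of_mem hz))
      (half_pos hε)
    obtain ⟨hr, hx⟩ := hs x (Finset.mem_insert_self _ _)
    obtain ⟨F₂, g1, g2, g3, g4⟩ := step hac hτ hB hd h1 h2
      (s.isCompact_biUnion fun z _ => isCompact_closedBall z (r z)) h4 hr hx (half_pos hε)
    refine ⟨F₂, g1, g2, fun y => ?_, fun y hy => g4 y ?_⟩
    · have := norm_sub_le_norm_sub_add_norm_sub (F₂ y) (F₁ y) (F y)
      linarith [h3 y, g3 y]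
    · rw [Finset.set_biUnion_insert] at hy
      exact hy.symm

end GPa

theorem stGP : StGP := by
  intro A W T _ _ _ _ _ _ _ _ ac τ hac hτ K hK hKa hfree F hF hFe B hB _ hd ε hε
  let _ := Fintype.ofFinite A
  have := FiniteDimensional.proper_real W
  obtain ⟨G, hG, hGe, hGF⟩ := GPa.exists_approx hac hτ hK hKa hF hFe (half_pos hε)
  have hr : ∀ x : W, ∃ r : ℝ, x ∈ K →
      0 < r ∧ ∀ g, ∀ y ∈ ball x (2 * r), ac g y ∈ ball x (2 * r) → g = 1 := fun x => by
    by_cases hx : x ∈ K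
    · obtain ⟨r, h1, h2⟩ := GPa.exists_ball fun g => hfree g x hx
      exact ⟨r, fun _ => ⟨h1, h2⟩⟩
    · exact ⟨0, fun h => absurd h hx⟩
  choose r hr using hr
  obtain ⟨s, hs, hcov⟩ := hK.elim_nhds_subcover (fun x => closedBall x (r x))
    fun x hx => closedBall_mem_nhds x (hr x hx).1
  obtain ⟨F', h1, h2, h3, h4⟩ := GPa.steps hac hτ hB hd hG hGe r s (fun x hx => hr x (hs x hx))
    (half_pos hε)
  refine ⟨F', h1, h2, fun x hx => ?_, fun x hx => h4 x (hcov hx)⟩
  have := norm_sub_le_norm_sub_add_norm_sub (F' x) (G x) (F x)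
  linarith [h3 x, hGF x hx]

end Vale.Agent.P220Z.Deg
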