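import Vale.Agent.P220Z.Deg.Defs

/-!
# The degree: linear changes, products, and nondegenerate zeros
-/

open Set Filter Topology Bornology Metric
open scoped ContDiff

namespace Vale.Agent.P220Z.Deg

open Vale.Agent.P205.TI.Deg

section Germ

variable {X X' Y Y' : Type} [NormedAddCommGroup X] [NormedAddCommGroup X']
  [NormedAddCommGroup Y] [NormedAddCommGroup Y']

theorem Germ.prod {O : Set X} {O' : Set X'} {f : X → Y} {f' : X' → Y'} (h : Germ O f)
    (h' : Germ O' f') : Germ (O ×ˢ O') fun p : X × X' => (f p.1, f' p.2) := by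
  refine ⟨h.isOpen.prod h'.isOpen, (h.cont.comp continuousOn_fst fun _ hp => hp.1).prodMk
    (h'.cont.comp continuousOn_snd fun _ hp => hp.2), ?_⟩
  have e : {p : X × X' | p ∈ O ×ˢ O' ∧ (f p.1, f' p.2) = 0} =
      {x | x ∈ O ∧ f x = 0} ×ˢ {x | x ∈ O' ∧ f' x = 0} := by
    ext p
    simp only [mem_ofPred_eq, mem_prod, Prod.mk_eq_zero]
    tauto
  exact e ▸ h.cpt.prod h'.cpt

theorem Nbh.prod {O W : Set X} {O' W' : Set X'} {f : X → Y} {f' : X' → Y'} (h : Nbh O f W)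
    (h' : Nbh O' f' W') : Nbh (O ×ˢ O') (fun p : X × X' => (f p.1, f' p.2)) (W ×ˢ W') :=
  ⟨h.isOpen.prod h'.isOpen, h.bdd.prod h'.bdd, by
    rw [closure_prod_eq]
    exact prod_mono h.sub h'.sub, fun p hp h0 =>
    ⟨h.zero _ hp.1 (congrArg Prod.fst h0), h'.zero _ hp.2 (congrArg Prod.snd h0)⟩⟩

variable [NormedSpace ℝ X] [NormedSpace ℝ X'] [NormedSpace ℝ Y] [NormedSpace ℝ Y']

theorem Germ.lin {O : Set X} {f : X → Y} (h : Germ O f) (L : Y ≃L[ℝ] Y') (B : X' ≃L[ℝ] X) :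
    Germ (B ⁻¹' O) fun y => L (f (B y)) := by
  refine ⟨h.isOpen.preimage B.continuous, L.continuous.comp_continuousOn
    (h.cont.comp B.continuous.continuousOn fun _ hy => hy), ?_⟩
  convert B.toHomeomorph.isCompact_preimage.2 h.cpt using 1
  ext y
  simp

theorem Nbh.lin {O W : Set X} {f : X → Y} (h : Nbh O f W) (L : Y ≃L[ℝ] Y') (B : X' ≃L[ℝ] X) :
    Nbh (B ⁻¹' O) (fun y => L (f (B y))) (B ⁻¹' W) :=
  ⟨h.isOpen.preimage B.continuous, B.antilipschitz.isBounded_preimage h.bdd,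
    (B.continuous.closure_preimage_subset W).trans (preimage_mono h.sub),
    fun _ hy h0 => h.zero _ hy (L.map_eq_zero_iff.1 h0)⟩

end Germ

variable {X : Type} [NormedAddCommGroup X] [NormedSpace ℝ X] [FiniteDimensional ℝ X]

/-- the degree from a regular smooth replacement whose zeros are known -/
theorem pdeg_reg' {O W : Set X} {f g : X → X} (hf : ContinuousOn f O) (h : Nbh O f W)
    (hg : ContDiff ℝ ∞ g)
    (hne : ∀ x ∈ frontier W, ∀ t ∈ Icc (0 : ℝ) 1, (1 - t) • f x + t • g x ≠ 0)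
    {Z : Finset X} (hZ : ∀ z, z ∈ Z ↔ z ∈ W ∧ g z = 0)
    (hreg : ∀ z ∈ Z, (fderiv ℝ g z).det ≠ 0) :
    pdeg O f = ∑ z ∈ Z, sg (fderiv ℝ g z).det := by
  obtain ⟨Z', h1, h2⟩ := pdeg_reg hf h hg hne fun x hx h0 => hreg x ((hZ x).2 ⟨hx, h0⟩)
  rw [h2, Finset.ext fun z => (h1 z).trans (hZ z).symm]

omit [FiniteDimensional ℝ X] in
theorem det_lin {X' : Type} [NormedAddCommGroup X'] [NormedSpace ℝ X'] (L : X →L[ℝ] X')
    (B : X' ≃L[ℝ] X) (D : X →L[ℝ] X) :
    (L.comp (D.comp (B : X' →L[ℝ] X))).det = ((B : X' →L[ℝ] X).comp L).det * D.det := by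
  have h1 := LinearMap.det_conj
    ((((B : X' →L[ℝ] X).comp L : X →L[ℝ] X) : X →ₗ[ℝ] X) ∘ₗ (D : X →ₗ[ℝ] X))
    B.symm.toLinearEquiv
  rw [LinearMap.det_comp] at h1
  refine Eq.trans (congrArg LinearMap.det (LinearMap.ext fun y => ?_)) h1
  simp

theorem stLin : StLin := by
  intro X X' _ _ _ _ _ _ L B O f h
  obtain ⟨W, hW⟩ := h.exists_nbh
  obtain ⟨g, h1, h2, h3⟩ := hW.exists_reg h.cont
  obtain ⟨Z, h4, h5⟩ := pdeg_reg h.cont hW h1 (fun x hx t ht => seg_ne (h2 x hx) ht)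
    fun x _ => h3 x
  have hd : ∀ y, (fderiv ℝ (fun y => L (g (B y))) y).det =
      ((B : X' →L[ℝ] X).comp (L : X →L[ℝ] X')).det * (fderiv ℝ g (B y)).det := fun y => by
    rw [← det_lin]
    exact congrArg _ (L.hasFDerivAt.comp y
      ((h1.differentiable (by simp) (B y)).hasFDerivAt.comp y B.hasFDerivAt)).fderiv
  have h0 : ((B : X' →L[ℝ] X).comp (L : X →L[ℝ] X')).det ≠ 0 :=
    (L.trans B).toLinearEquiv.isUnit_det'.ne_zero
  rw [pdeg_reg' (h.lin L B).cont (hW.lin L B) (L.contDiff.comp (h1.comp B.contDiff))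
    (Z := Z.map B.symm.toEquiv.toEmbedding) (fun y hy t ht => ?_) (fun y => ?_) fun y hy => ?_,
    h5, Finset.sum_map, Finset.mul_sum]
  · refine Finset.sum_congr rfl fun z _ => ?_
    rw [← sg_mul]
    exact congrArg sg ((hd _).trans (by simp))
  · have h6 := seg_ne (h2 (B y) (B.continuous.frontier_preimage_subset W hy)) ht
    simpa only [Function.comp, ← map_smul, ← map_add, Ne, L.map_eq_zero_iff] using h6
  · simp [Finset.mem_map_equiv, h4]
  · refine (hd y).trans_ne (mul_ne_zero h0 (h3 _ ((h4 _).1 ?_).2))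
    simpa [Finset.mem_map_equiv] using hy

theorem stProdDeg : StProdDeg := by
  intro X X' _ _ _ _ _ _ O f O' f' h h'
  obtain ⟨W, hW⟩ := h.exists_nbh
  obtain ⟨g, h1, h2, h3⟩ := hW.exists_reg h.cont
  obtain ⟨Z, h4, h5⟩ := pdeg_reg h.cont hW h1 (fun x hx t ht => seg_ne (h2 x hx) ht)
    fun x _ => h3 x
  obtain ⟨W', hW'⟩ := h'.exists_nbh
  obtain ⟨g', k1, k2, k3⟩ := hW'.exists_reg h'.cont
  obtain ⟨Z', k4, k5⟩ := pdeg_reg h'.cont hW' k1 (fun x hx t ht => seg_ne (k2 x hx) ht)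
    fun x _ => k3 x
  have hd : ∀ p : X × X', (fderiv ℝ (Prod.map g g') p).det =
      (fderiv ℝ g p.1).det * (fderiv ℝ g' p.2).det := fun p => by
    rw [((h1.differentiable (by simp) p.1).hasFDerivAt.prodMap p
      (k1.differentiable (by simp) p.2).hasFDerivAt).fderiv]
    exact LinearMap.det_prodMap _ _
  rw [pdeg_reg' (h.prod h').cont (hW.prod hW') (h1.prodMap k1) (Z := Z ×ˢ Z')
    (fun p hp t ht h0 => ?_) (fun p => ?_) fun p hp => ?_, h5, k5, Finset.sum_mul_sum,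
    Finset.sum_product]
  · simp only [hd, sg_mul]
  · rw [frontier_prod_eq] at hp
    rcases hp with hp | hp
    · exact seg_ne (k2 _ hp.2) ht (congrArg Prod.snd h0)
    · exact seg_ne (h2 _ hp.1) ht (congrArg Prod.fst h0)
  · simp only [Finset.mem_product, h4, k4, mem_prod, Prod.ext_iff, Prod.map_fst, Prod.map_snd,
      Prod.fst_zero, Prod.snd_zero]
    tauto
  · obtain ⟨h6, h7⟩ := Finset.mem_product.1 hp
    exact (hd p).trans_ne (mul_ne_zero (h3 _ ((h4 _).1 h6).2) (k3 _ ((k4 _).1 h7).2))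

/-- one nondegenerate zero -/
theorem pdeg_one {O : Set X} {f : X → X} {z : X} {L : X →L[ℝ] X} (hO : IsOpen O)
    (hf : ContinuousOn f O) (hz : z ∈ O) (h0 : f z = 0) (hu : ∀ x ∈ O, f x = 0 → x = z)
    (hL : HasFDerivAt f L z) (hd : L.det ≠ 0) : pdeg O f = sg L.det := by
  set e := L.toContinuousLinearEquivOfDetNeZero hd with he
  have hLe : ∀ v, L v = e v := fun _ => rfl
  have h1 := (hL.isLittleO.trans_isBigO (e.isBigO_sub_rev (𝓝 z) z)).def one_half_pos
  obtain ⟨r, hr, hb⟩ := nhds_basis_closedBall.eventually_iff.1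
    (h1.and (hO.mem_nhds hz : ∀ᶠ x in 𝓝 z, x ∈ O))
  have hg : ∀ x, fderiv ℝ (fun x => L (x - z)) x = L := fun x =>
    (L.hasFDerivAt.comp x ((hasFDerivAt_id x).sub_const z)).fderiv
  have hN : Nbh O f (ball z r) := ⟨isOpen_ball, isBounded_ball,
    closure_ball_subset_closedBall.trans fun x hx => (hb hx).2,
    fun x hx h => hu x hx h ▸ mem_ball_self hr⟩
  rw [pdeg_reg' hf hN (g := fun x => L (x - z)) (L.contDiff.comp (contDiff_id.sub contDiff_const))
    (Z := {z}) (fun x hx t ht => ?_) (fun x => ?_) fun x _ => by rwa [hg], Finset.sum_singleton, hg]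
  · have h2 := frontier_ball_subset_sphere hx
    have h3 := (hb (sphere_subset_closedBall h2)).1
    have h4 : 0 < ‖e (x - z)‖ := norm_pos_iff.2 (e.map_ne_zero_iff.2
      (sub_ne_zero.2 (ne_of_mem_sphere h2 hr.ne')))
    rw [h0, sub_zero, hLe] at h3
    have h5 := seg_ne (a := e (x - z)) (b := f x) (by linarith) (t := 1 - t)
      ⟨by linarith [ht.2], by linarith [ht.1]⟩
    rwa [sub_sub_cancel, add_comm] at h5
  · rw [Finset.mem_singleton, hLe, e.map_eq_zero_iff, sub_eq_zero]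
    exact ⟨fun h => ⟨h ▸ mem_ball_self hr, h⟩, fun h => h.2⟩

theorem stLocal : StLocal := by
  intro X _ _ _ O f Z L hO hf hZ hL
  obtain ⟨U, hU, hd⟩ := Z.finite_toSet.t2_separation
  have h : Germ O f := ⟨hO, hf, by
    convert Z.finite_toSet.isCompact using 1
    exact Set.ext fun x => (hZ x).symm⟩
  rw [pdeg_sum h Z (U := fun z => U z ∩ O) (fun z _ => (hU z).2.inter hO)
    (fun _ _ => inter_subset_right) (hd.mono fun _ => inter_subset_left)
    fun x hx h0 => ⟨x, (hZ x).2 ⟨hx, h0⟩, (hU x).1, hx⟩]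
  refine Finset.sum_congr rfl fun z hz => pdeg_one ((hU z).2.inter hO)
    (hf.mono inter_subset_right) ⟨(hU z).1, ((hZ z).1 hz).1⟩ ((hZ z).1 hz).2
    (fun x hx h0 => ?_) (hL z hz).1 (hL z hz).2
  by_contra hne
  exact disjoint_left.1 (hd ((hZ x).2 ⟨hx.2, h0⟩) hz hne) (hU x).1 hx.1

/-- the degree of an invertible affine map -/
theorem pdeg_affine {O : Set X} {z : X} {L : X →L[ℝ] X} (hO : IsOpen O) (hz : z ∈ O)
    (hd : L.det ≠ 0) : pdeg O (fun x => L (x - z)) = sg L.det :=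
  pdeg_one hO (by fun_prop) hz (by rw [sub_self, map_zero]) (fun _ _ h => sub_eq_zero.1
    ((L.toContinuousLinearEquivOfDetNeZero hd).map_eq_zero_iff.1 h))
    (L.hasFDerivAt.comp z ((hasFDerivAt_id z).sub_const z)) hd

/-- the degree of an invertible linear map -/
theorem pdeg_linear {O : Set X} (L : X ≃L[ℝ] X) (hO : IsOpen O) (h0 : (0 : X) ∈ O) :
    pdeg O L = sg (L : X →L[ℝ] X).det :=
  pdeg_one hO L.continuous.continuousOn h0 (map_zero L) (fun _ _ h => L.map_eq_zero_iff.1 h)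
    L.hasFDerivAt L.toLinearEquiv.isUnit_det'.ne_zero

end Vale.Agent.P220Z.Deg
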