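import Vale.Agent.P220Z.Deg.Api

/-!
# The count modulo five: naturality and suspension
-/

open Set Filter Topology Bornology
open scoped ContDiff

namespace Vale.Agent.P220Z.Deg

open Vale.Agent.P205.TI.Deg

namespace SymA

theorem cpt_congr {X : Type} [TopologicalSpace X] {s t : Set X} (h : IsCompact s)
    (e : ∀ x, x ∈ s ↔ x ∈ t) : IsCompact t := Set.ext e ▸ h

theorem mem_face {ι T : Type} [Zero T] {y : T × (ι → ℂ)} : y ∈ Face ι T ↔
    ∃ r : ι → ℝ, (∀ i, 0 ≤ r i) ∧ (∃ i, r i = 0) ∧ y = (0, fun i => (r i : ℂ)) := by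
  constructor
  · rintro ⟨h1, h2, i, h3⟩
    choose r h4 h5 using h2
    exact ⟨r, h4, ⟨i, by exact_mod_cast (h5 i).symm.trans h3⟩, Prod.ext h1 (funext h5)⟩
  · rintro ⟨r, h1, ⟨i, h2⟩, rfl⟩
    exact ⟨rfl, fun i => ⟨r i, h1 i, rfl⟩, i, by simp [h2]⟩

theorem germ_prod {X X' Y Y' : Type} [NormedAddCommGroup X] [NormedAddCommGroup X']
    [NormedAddCommGroup Y] [NormedAddCommGroup Y'] {O : Set X} {O' : Set X'} {f : X → Y}
    {f' : X' → Y'} (h : Germ O f) (h' : Germ O' f') :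
    Germ (O ×ˢ O') fun p : X × X' => (f p.1, f' p.2) := by
  refine ⟨h.isOpen.prod h'.isOpen, (h.cont.comp continuousOn_fst fun _ hp => hp.1).prodMk
    (h'.cont.comp continuousOn_snd fun _ hp => hp.2), ?_⟩
  refine cpt_congr (h.cpt.prod h'.cpt) fun p => ?_
  simp only [mem_prod, mem_ofPred_eq, Prod.mk_eq_zero]
  tauto

variable {ι A W T : Type} [Fintype ι] [Group A] [NormedAddCommGroup W] [NormedSpace ℝ W]
  [NormedAddCommGroup T] [NormedSpace ℝ T]

theorem th_eq (S : Setup ι A W T) (F : W → T × (ι → ℂ)) (p : (ι → ℝ) × W) :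
    S.Th F p = S.e (F p.2 - (0, fun i => (p.1 i : ℂ))) :=
  congrArg S.e (Prod.ext (sub_zero _).symm rfl)

theorem germ [FiniteDimensional ℝ W] {S : Setup ι A W T} {O U : Set W}
    {F F' : W → T × (ι → ℂ)} (h : Repl S O F U F') : Germ (Orth ι ×ˢ U) (S.Th F') := by
  have ho : IsOpen (Orth ι) := by
    rw [Orth, ofPred_forall]
    exact isOpen_iInter_of_finite fun i => isOpen_lt continuous_const (continuous_apply i)
  refine ⟨ho.prod h.isOpen, ?_, ?_⟩
  · rw [funext (th_eq S F')]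
    exact S.e.continuous.comp_continuousOn ((h.cont.comp continuousOn_snd
      fun _ hp => subset_closure hp.2).sub (by fun_prop))
  · have hc : IsClosed {y : T × (ι → ℂ) | y = (0, fun i => (((y.2 i).re : ℝ) : ℂ)) ∧
        ∀ i, 0 ≤ (y.2 i).re} := by
      refine IsClosed.and (isClosed_eq continuous_id (by fun_prop)) ?_
      rw [ofPred_forall]
      exact isClosed_iInter fun i => isClosed_le continuous_const (by fun_prop)
    have hK := (compact_closure h.bdd).of_isClosed_subset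
      (h.cont.preimage_isClosed_of_isClosed isClosed_closure hc) inter_subset_left
    have c1 : ContinuousOn (fun x => ((fun i => ((F' x).2 i).re, x) : (ι → ℝ) × W))
        (closure U) :=
      ((show Continuous fun y : T × (ι → ℂ) => fun i => (y.2 i).re by
        fun_prop).comp_continuousOn h.cont).prodMk continuousOn_id
    refine cpt_congr (hK.image_of_continuousOn (c1.mono inter_subset_left)) fun p => ?_
    simp only [mem_ofPred_eq, th_eq, map_eq_zero_iff S.e S.e.injective, sub_eq_zero]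
    constructor
    · rintro ⟨x, ⟨h1, h2, h3⟩, rfl⟩
      refine ⟨⟨fun i => (h3 i).lt_of_ne fun h4 => h.gen x h1
        (mem_face.2 ⟨_, h3, ⟨i, h4.symm⟩, h2⟩), ?_⟩, h2⟩
      by_contra h4
      refine h.seg x (by rw [h.isOpen.frontier_eq]; exact ⟨h1, h4⟩) 1 ⟨zero_le_one, le_rfl⟩ ?_
      rw [sub_self, zero_smul, zero_add, one_smul, h2]
      exact ⟨rfl, fun i => ⟨_, pow_nonneg (h3 i) 5, (Complex.ofReal_pow _ 5).symm⟩⟩
    · rintro ⟨⟨h1, h2⟩, h3⟩
      refine ⟨p.2, ⟨subset_closure h2, ?_⟩, by simp [h3]⟩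
      rw [mem_preimage, h3]
      exact ⟨by simp, fun i => by simpa using (h1 i).le⟩

end SymA

open SymA

theorem stSym (hC : StCnt) (hL : StLin) : StSym := by
  intro ι A W T A' W' T' _ _ _ _ _ _ _ _ _ _ _ _ _ _ _ _ _ S S' φ B L h1 h2 h3 h4 h5 O F hE
  have hE' : EG S' (B ⁻¹' O) fun x => L (F (B x)) :=
    ⟨hE.isOpen.preimage B.continuous, L.continuous.comp_continuousOn
      (hE.cont.comp B.continuous.continuousOn fun _ hx => hx), by
        simp only [h5]
        exact B.toHomeomorph.isCompact_preimage.2 hE.cpt,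
      fun g x hx => by rw [mem_preimage, h2]; exact hE.inv _ _ hx,
      fun g x hx => by rw [h2, hE.equi _ _ hx, h3],
      fun g x hx e => h1 g (hE.free _ _ hx (by rw [← h2, e]))⟩
  refine ⟨hE', ?_⟩
  obtain ⟨U, F', hR, -⟩ := (hC ι A W T S).exi O F hE 1 one_pos
  have e1 : closure (B ⁻¹' U) = B ⁻¹' closure U := (B.toHomeomorph.preimage_closure U).symm
  have e2 : frontier (B ⁻¹' U) = B ⁻¹' frontier U := (B.toHomeomorph.preimage_frontier U).symm
  have hR' : Repl S' (B ⁻¹' O) (fun x => L (F (B x))) (B ⁻¹' U) fun x => L (F' (B x)) :=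
    ⟨hR.isOpen.preimage B.continuous, B.antilipschitz.isBounded_preimage hR.bdd,
      e1 ▸ fun _ hx => hR.sub hx, fun x hx h => hR.zero _ hx ((h5 _).1 h),
      fun g x hx => by rw [mem_preimage, h2]; exact hR.inv _ _ hx,
      e1 ▸ L.continuous.comp_continuousOn
        (hR.cont.comp B.continuous.continuousOn fun _ hx => hx),
      e1 ▸ fun g x hx => by rw [h2, hR.equi _ _ hx, h3],
      e2 ▸ fun x hx t ht h => hR.seg _ hx t ht ((h5 _).1 (by simpa using h)),
      e1 ▸ fun x hx h => by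
        obtain ⟨r, a1, a2, a3⟩ := mem_face.1 h
        exact hR.gen _ hx (mem_face.2 ⟨r, a1, a2, L.injective (a3.trans (h4 r).symm)⟩)⟩
  have key := hL _ _ (S.e.symm.trans (L.trans S'.e))
    ((ContinuousLinearEquiv.refl ℝ (ι → ℝ)).prodCongr B) _ _ (germ hR)
  have e3 : S'.Th (fun x => L (F' (B x))) = fun y => (S.e.symm.trans (L.trans S'.e))
      (S.Th F' (((ContinuousLinearEquiv.refl ℝ (ι → ℝ)).prodCongr B) y)) := by
    funext y
    simp [th_eq, h4]
  rw [(hC ι A W T S).repl O F U F' hE hR, (hC ι A' W' T' S').repl _ _ _ _ hE' hR', ← Int.cast_mul,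
    Setup.num, Setup.num, e3]
  exact congrArg _ key

theorem stSusp (hC : StCnt) (hL : StLin) (hP : StProdDeg) (hLoc : StLocal) : StSusp := by
  intro ι A W T V _ _ _ _ _ _ _ _ _ _ _ _ S ν ν' h h' L hν O F hE
  have hs : ∀ (y : T × (ι → ℂ)) (v : V),
      ((y.1, L v), y.2) ∈ Star ι (T × V) ↔ y ∈ Star ι T ∧ v = 0 := fun y v => by
    simp only [Star, mem_ofPred_eq, Prod.mk_eq_zero, map_eq_zero_iff L L.injective]
    tauto
  have hc : ∀ {G : W → T × (ι → ℂ)} {K : Set W} (N : Set V), ContinuousOn G K →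
      ContinuousOn (fun p : W × V => (((G p.1).1, L p.2), (G p.1).2)) (K ×ˢ N) := fun N hG =>
    have c := hG.comp continuousOn_fst fun (p : W × V) (hp : p ∈ _ ×ˢ N) => hp.1
    (c.fst.prodMk (L.continuous.comp continuous_snd).continuousOn).prodMk c.snd
  have he : ∀ {G : W → T × (ι → ℂ)} (g : A) (p : W × V), G (S.ac g p.1) = S.act g (G p.1) →
      (((G ((S.susp h h').ac g p).1).1, L ((S.susp h h').ac g p).2),
        (G ((S.susp h h').ac g p).1).2) =
        (S.susp h h').act g (((G p.1).1, L p.2), (G p.1).2) := fun g p e =>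
    Prod.ext (Prod.ext (Prod.ext_iff.1 e).1 (hν g p.2)) (Prod.ext_iff.1 e).2
  have hE' : EG (S.susp h h') (O ×ˢ univ) fun p => (((F p.1).1, L p.2), (F p.1).2) :=
    ⟨hE.isOpen.prod isOpen_univ, hc _ hE.cont, by
      refine cpt_congr (hE.cpt.prod (isCompact_singleton (x := (0 : V)))) fun p => ?_
      simp only [mem_prod, mem_ofPred_eq, hs, mem_singleton_iff, mem_univ]
      tauto,
      fun g p hp => ⟨hE.inv g _ hp.1, trivial⟩, fun g p hp => he g p (hE.equi g _ hp.1),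
      fun g p hp e => hE.free g _ hp.1 (congrArg Prod.fst e)⟩
  refine ⟨hE', ?_⟩
  obtain ⟨U, F', hR, -⟩ := (hC ι A W T S).exi O F hE 1 one_pos
  obtain ⟨N, n1, n2, n3, n4⟩ : ∃ N : Set V, IsOpen N ∧ IsBounded N ∧ 0 ∈ N ∧
      ∀ g, ∀ v ∈ N, ν g v ∈ N :=
    ⟨⋂ g, ν g ⁻¹' Metric.ball 0 1,
      isOpen_iInter_of_finite fun g => Metric.isOpen_ball.preimage (ν g).continuous,
      (Metric.isBounded_ball (x := 0) (r := 1)).subset fun v hv => h.one v ▸ mem_iInter.1 hv 1,
      mem_iInter.2 fun g => by simp,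
      fun g v hv => mem_iInter.2 fun k => by
        rw [mem_preimage, ← h.mul]
        exact mem_iInter.1 hv _⟩
  have e1 : closure (U ×ˢ N) = closure U ×ˢ closure N := closure_prod_eq
  have hR' : Repl (S.susp h h') (O ×ˢ univ) (fun p => (((F p.1).1, L p.2), (F p.1).2)) (U ×ˢ N)
      fun p => (((F' p.1).1, L p.2), (F' p.1).2) :=
    ⟨hR.isOpen.prod n1, hR.bdd.prod n2, e1 ▸ prod_mono hR.sub (subset_univ _),
      fun p hp e => ⟨hR.zero _ hp.1 ((hs _ _).1 e).1, ((hs _ _).1 e).2 ▸ n3⟩,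
      fun g p hp => ⟨hR.inv g _ hp.1, n4 g _ hp.2⟩, e1 ▸ hc _ hR.cont,
      e1 ▸ fun g p hp => he g p (hR.equi g _ hp.1),
      fun p hp t ht e => by
        rw [(hR.isOpen.prod n1).frontier_eq, e1] at hp
        have e' := (hs ((1 - t) • F p.1 + t • F' p.1) p.2).1 (by
          rw [show L p.2 = (1 - t) • L p.2 + t • L p.2 by
            rw [← add_smul, sub_add_cancel, one_smul]]
          exact e)
        exact hR.seg p.1 (by
          rw [hR.isOpen.frontier_eq]
          exact ⟨hp.1.1, fun a => hp.2 ⟨a, e'.2 ▸ n3⟩⟩) t ht e'.1,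
      e1 ▸ fun p hp e => hR.gen _ hp.1 ⟨congrArg Prod.fst e.1, e.2⟩⟩
  have hz : ∀ z, z ∈ ({0} : Finset V) ↔ z ∈ N ∧ L z = 0 := fun z => by
    rw [Finset.mem_singleton, map_eq_zero_iff L L.injective]
    exact ⟨fun e => ⟨e ▸ n3, e⟩, And.right⟩
  have g1 : Germ N L :=
    ⟨n1, L.continuous.continuousOn, cpt_congr (Finset.finite_toSet _).isCompact hz⟩
  have k1 := hLoc V N L {0} (fun _ => L) n1 g1.cont hz
    fun z _ => ⟨L.hasFDerivAt, L.toLinearEquiv.isUnit_det'.ne_zero⟩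
  have k2 := hL _ _ (ContinuousLinearEquiv.prodAssoc ℝ (ι → ℝ) W V)
    (ContinuousLinearEquiv.prodAssoc ℝ (ι → ℝ) W V).symm _ _ (germ_prod (germ hR) g1)
  rw [hP _ _ _ _ _ _ (germ hR) g1, k1, Finset.sum_singleton,
    ContinuousLinearEquiv.coe_symm_comp_coe, ContinuousLinearMap.det, ContinuousLinearMap.coe_id,
    LinearMap.det_id, sg_pos one_pos, one_mul, mul_comm] at k2
  rw [(hC ι A W T S).repl O F U F' hE hR, (hC ι A _ _ _).repl _ _ _ _ hE' hR', ← Int.cast_mul,
    Setup.num, Setup.num, ← k2]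
  congr 2
  exact Set.ext fun p => and_assoc.symm

section

variable {ι A W T A' W' T' : Type} [Fintype ι] [Group A] [Finite A]
  [NormedAddCommGroup W] [NormedSpace ℝ W]
  [FiniteDimensional ℝ W] [NormedAddCommGroup T] [NormedSpace ℝ T] [FiniteDimensional ℝ T]
  [Group A'] [Finite A'] [NormedAddCommGroup W'] [NormedSpace ℝ W'] [FiniteDimensional ℝ W']
  [NormedAddCommGroup T'] [NormedSpace ℝ T'] [FiniteDimensional ℝ T']

/-- naturality when the orientations correspond -/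
theorem cnt_conj (hS : StSym) (S : Setup ι A W T) (S' : Setup ι A' W' T') (φ : A' → A)
    (B : W' ≃L[ℝ] W) (L : (T × (ι → ℂ)) ≃L[ℝ] (T' × (ι → ℂ)))
    (h1 : ∀ g, φ g = 1 → g = 1) (h2 : ∀ g x, B (S'.ac g x) = S.ac (φ g) (B x))
    (h3 : ∀ g y, L (S.act (φ g) y) = S'.act g (L y))
    (h4 : ∀ r : ι → ℝ, L (0, fun i => (r i : ℂ)) = (0, fun i => (r i : ℂ)))
    (h5 : ∀ y, L y ∈ Star ι T' ↔ y ∈ Star ι T)
    (he : ∀ y, ((S'.e (L y)).1, B (S'.e (L y)).2) = S.e y) {O : Set W}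
    {F : W → T × (ι → ℂ)} (hE : EG S O F) :
    S'.cnt (B ⁻¹' O) (fun x => L (F (B x))) = S.cnt O F := by
  rw [(hS ι A W T A' W' T' S S' φ B L h1 h2 h3 h4 h5 O F hE).2,
    show ((ContinuousLinearMap.id ℝ (ι → ℝ)).prodMap (B : W' →L[ℝ] W)).comp
      (S'.e.toContinuousLinearMap.comp (L.toContinuousLinearMap.comp
        S.e.symm.toContinuousLinearMap)) = ContinuousLinearMap.id ℝ _ from
      ContinuousLinearMap.ext fun p => (he _).trans (S.e.apply_symm_apply p),
    ContinuousLinearMap.det, ContinuousLinearMap.coe_id, LinearMap.det_id, sg_pos one_pos,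
    Int.cast_one, one_mul]

/-- naturality for the same spaces and the same orientation -/
theorem cnt_auto (hS : StSym) (S : Setup ι A W T) (S' : Setup ι A' W T) (φ : A' → A)
    (B : W ≃L[ℝ] W) (L : (T × (ι → ℂ)) ≃L[ℝ] (T × (ι → ℂ)))
    (h1 : ∀ g, φ g = 1 → g = 1) (h2 : ∀ g x, B (S'.ac g x) = S.ac (φ g) (B x))
    (h3 : ∀ g y, L (S.act (φ g) y) = S'.act g (L y))
    (h4 : ∀ r : ι → ℝ, L (0, fun i => (r i : ℂ)) = (0, fun i => (r i : ℂ)))
    (h5 : ∀ y, L y ∈ Star ι T ↔ y ∈ Star ι T) (he : S'.e = S.e) {O : Set W}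
    {F : W → T × (ι → ℂ)} (hE : EG S O F) :
    S'.cnt (B ⁻¹' O) (fun x => L (F (B x))) =
      (sg (B : W →L[ℝ] W).det : ℤ) * (sg L.toContinuousLinearMap.det : ℤ) * S.cnt O F := by
  rw [(hS ι A W T A' W T S S' φ B L h1 h2 h3 h4 h5 O F hE).2, he, ← Int.cast_mul, ← sg_mul]
  congr 3
  have a1 := LinearMap.det_conj L.toLinearEquiv.toLinearMap S.e.toLinearEquiv
  have a2 := LinearMap.det_prodMap (LinearMap.id (R := ℝ) (M := ι → ℝ))
    B.toLinearEquiv.toLinearMap
  rw [LinearMap.det_id, one_mul] at a2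
  exact (LinearMap.det_comp _ _).trans (congrArg₂ _ a2 a1)

end

end Vale.Agent.P220Z.Deg
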