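import Vale.Agent.P220Z.Deg.Cnt
import Vale.Agent.P220Z.Deg.GP
import Vale.Agent.P220Z.Deg.Lin
import Vale.Agent.P220Z.Deg.Div
import Vale.Agent.P220Z.Deg.Sym

/-!
# The count modulo five: all statements proved
-/

open Set Metric

namespace Vale.Agent.P220Z.Deg

theorem gp0 : StGP0 := by
  intro A W T _ _ _ _ _ _ _ _ ac τ hac hτ K hK hKa hfree F hF hFe B hB hd ε hε
  let _ := Fintype.ofFinite A
  have := FiniteDimensional.proper_real W
  obtain ⟨G, hG, hGe, hGF⟩ := GPa.exists_approx hac hτ hK hKa hF hFe (half_pos hε)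
  have hr : ∀ x : W, ∃ r : ℝ, x ∈ K →
      0 < r ∧ ∀ g, ∀ y ∈ ball x (2 * r), ac g y ∈ ball x (2 * r) → g = 1 := fun x => by
    by_cases hx : x ∈ K
    · obtain ⟨r, h1, h2⟩ := GPa.exists_ball fun g => hfree g x hx
      exact ⟨r, fun _ => ⟨h1, h2⟩⟩
    · exact ⟨0, fun h => absurd h hx⟩
  choose r hr using hr
  obtain ⟨s, hs, hcov⟩ := hK.elim_nhds_subcover (fun x => closedBall x (r x))
    fun x hx => closedBall_mem_nhds x (hr x hx).1
  obtain ⟨F', h1, h2, h3, h4⟩ := GPa.steps hac hτ hB hd hG hGe r s (fun x hx => hr x (hs x hx))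
    (half_pos hε)
  refine ⟨F', h1, h2, fun x hx => ?_, fun x hx => h4 x (hcov hx)⟩
  have := norm_sub_le_norm_sub_add_norm_sub (F' x) (G x) (F x)
  linarith [h3 x, hGF x hx]

theorem div5 : StDiv := stDiv stGP stLin

theorem stCnt : StCnt := stCnt_of gp0 div5

theorem symm5 : StSym := stSym stCnt stLin

theorem susp5 : StSusp := stSusp stCnt stLin stProdDeg stLocal

end Vale.Agent.P220Z.Deg
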