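import Vale.Agent.P220Z.Deg.Defs

/-!
# The count modulo five: statements
-/

open Set Filter Topology Bornology
open scoped ContDiff

namespace Vale.Agent.P220Z.Deg

open Vale.Agent.P205.TI.Deg

section

variable {ι A W T V : Type} [Fintype ι] [Group A] [NormedAddCommGroup W] [NormedSpace ℝ W]
  [NormedAddCommGroup T] [NormedSpace ℝ T] [NormedAddCommGroup V] [NormedSpace ℝ V]

/-- the orientation after adding the summand `V` to source and target -/
noncomputable def suspE (e : (T × (ι → ℂ)) ≃L[ℝ] ((ι → ℝ) × W)) (V : Type)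
    [NormedAddCommGroup V] [NormedSpace ℝ V] :
    ((T × V) × (ι → ℂ)) ≃L[ℝ] ((ι → ℝ) × (W × V)) :=
  ContinuousLinearEquiv.equivOfInverse
    (((ContinuousLinearMap.fst ℝ _ _).comp (e.toContinuousLinearMap.comp
      ((ContinuousLinearMap.fst ℝ T V).prodMap (ContinuousLinearMap.id ℝ (ι → ℂ))))).prod
      (((ContinuousLinearMap.snd ℝ _ _).comp (e.toContinuousLinearMap.comp
        ((ContinuousLinearMap.fst ℝ T V).prodMap (ContinuousLinearMap.id ℝ (ι → ℂ))))).prod
        ((ContinuousLinearMap.snd ℝ T V).comp (ContinuousLinearMap.fst ℝ _ _))))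
    ((((ContinuousLinearMap.fst ℝ _ _).comp (e.symm.toContinuousLinearMap.comp
      ((ContinuousLinearMap.id ℝ (ι → ℝ)).prodMap (ContinuousLinearMap.fst ℝ W V)))).prod
        ((ContinuousLinearMap.snd ℝ W V).comp (ContinuousLinearMap.snd ℝ _ _))).prod
      ((ContinuousLinearMap.snd ℝ _ _).comp (e.symm.toContinuousLinearMap.comp
        ((ContinuousLinearMap.id ℝ (ι → ℝ)).prodMap (ContinuousLinearMap.fst ℝ W V)))))
    (fun y => by simp) (fun y => by simp)

theorem suspE_apply (e : (T × (ι → ℂ)) ≃L[ℝ] ((ι → ℝ) × W))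
    (y : (T × V) × (ι → ℂ)) :
    suspE e V y = ((e (y.1.1, y.2)).1, ((e (y.1.1, y.2)).2, y.1.2)) := rfl

/-- the setup after adding the representation `ν` on `V` to the source and `ν'` to the target -/
noncomputable def Setup.susp (S : Setup ι A W T) {ν ν' : A → V →L[ℝ] V} (h : IsRep ν)
    (h' : IsRep ν') : Setup ι A (W × V) (T × V) where
  ac g := (S.ac g).prodMap (ν g)
  τ g := (S.τ g).prodMap (ν' g)
  χ := S.χ
  a := S.a
  e := suspE S.e V
  hac := ⟨fun x => Prod.ext (S.hac.one x.1) (h.one x.2),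
    fun g k x => Prod.ext (S.hac.mul g k x.1) (h.mul g k x.2)⟩
  hτ := ⟨fun x => Prod.ext (S.hτ.one x.1) (h'.one x.2),
    fun g k x => Prod.ext (S.hτ.mul g k x.1) (h'.mul g k x.2)⟩
  χ_mul := S.χ_mul
  χ_pow := S.χ_pow
  a_pow := S.a_pow
  a_ne := S.a_ne
  χ_a := S.χ_a

end

/-- the properties of the count for one setup -/
structure CntApi {ι A W T : Type} [Fintype ι] [Group A] [NormedAddCommGroup W] [NormedSpace ℝ W]
    [FiniteDimensional ℝ W] [NormedAddCommGroup T] [NormedSpace ℝ T] (S : Setup ι A W T) :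
    Prop where
  /-- generic replacements exist, smooth and as close as one wants -/
  exi : ∀ O F, EG S O F → ∀ ε > 0, ∃ U F', Repl S O F U F' ∧ ContDiff ℝ ∞ F' ∧
    (∀ g x, F' (S.ac g x) = S.act g (F' x)) ∧ ∀ x ∈ closure U, ‖F' x - F x‖ < ε
  /-- every generic replacement computes the count -/
  repl : ∀ O F U F', EG S O F → Repl S O F U F' → S.cnt O F = (S.num U F' : ℤ)
  /-- the count of a generic germ -/
  gen : ∀ O F, EG S O F → (∀ x ∈ O, F x ∉ Face ι T) → S.cnt O F = (S.num O F : ℤ)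
  /-- homotopy invariance with moving domain -/
  htpy : ∀ D F, HEG S D F →
    S.cnt {x | (0, x) ∈ D} (fun x => F (0, x)) = S.cnt {x | (1, x) ∈ D} fun x => F (1, x)
  congr : ∀ O F F', EG S O F → (∀ x ∈ O, F' x = F x) → S.cnt O F' = S.cnt O F
  empty : ∀ O F, EG S O F → (∀ x ∈ O, F x ∉ Star ι T) → S.cnt O F = 0
  /-- excision -/
  mono : ∀ O U F, EG S O F → IsOpen U → U ⊆ O → (∀ g, ∀ x ∈ U, S.ac g x ∈ U) →
    (∀ x ∈ O, F x ∈ Star ι T → x ∈ U) → S.cnt U F = S.cnt O F
  /-- additivity -/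
  add : ∀ O U U' F, EG S O F → IsOpen U → IsOpen U' → U ⊆ O → U' ⊆ O →
    (∀ g, ∀ x ∈ U, S.ac g x ∈ U) → (∀ g, ∀ x ∈ U', S.ac g x ∈ U') → Disjoint U U' →
    (∀ x ∈ O, F x ∈ Star ι T → x ∈ U ∨ x ∈ U') → S.cnt O F = S.cnt U F + S.cnt U' F

/-- The properties of the count hold for every setup. -/
def StCnt : Prop :=
  ∀ (ι A W T : Type) [Fintype ι] [Group A] [Finite A] [NormedAddCommGroup W] [NormedSpace ℝ W]
    [FiniteDimensional ℝ W] [NormedAddCommGroup T] [NormedSpace ℝ T] [FiniteDimensional ℝ T]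
    (S : Setup ι A W T), CntApi S

/-- Naturality: linear isomorphisms `B` of the sources and `L` of the targets along a map `φ` of
the groups; `L` fixes the real vectors `(0, r)` and preserves the star. -/
def StSym : Prop :=
  ∀ (ι A W T A' W' T' : Type) [Fintype ι] [Group A] [Finite A] [NormedAddCommGroup W] [NormedSpace ℝ W]
    [FiniteDimensional ℝ W] [NormedAddCommGroup T] [NormedSpace ℝ T] [FiniteDimensional ℝ T]
    [Group A'] [Finite A'] [NormedAddCommGroup W'] [NormedSpace ℝ W'] [FiniteDimensional ℝ W']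
    [NormedAddCommGroup T'] [NormedSpace ℝ T'] [FiniteDimensional ℝ T']
    (S : Setup ι A W T) (S' : Setup ι A' W' T') (φ : A' → A) (B : W' ≃L[ℝ] W)
    (L : (T × (ι → ℂ)) ≃L[ℝ] (T' × (ι → ℂ))), (∀ g, φ g = 1 → g = 1) →
    (∀ g x, B (S'.ac g x) = S.ac (φ g) (B x)) → (∀ g y, L (S.act (φ g) y) = S'.act g (L y)) →
    (∀ r : ι → ℝ, L (0, fun i => (r i : ℂ)) = (0, fun i => (r i : ℂ))) →
    (∀ y, L y ∈ Star ι T' ↔ y ∈ Star ι T) → ∀ O F, EG S O F →
    EG S' (B ⁻¹' O) (fun x => L (F (B x))) ∧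
    S'.cnt (B ⁻¹' O) (fun x => L (F (B x))) =
      (sg (((ContinuousLinearMap.id ℝ (ι → ℝ)).prodMap (B : W' →L[ℝ] W)).comp
        (S'.e.toContinuousLinearMap.comp (L.toContinuousLinearMap.comp
          S.e.symm.toContinuousLinearMap))).det : ℤ) * S.cnt O F

/-- Product with an equivariant linear isomorphism. -/
def StSusp : Prop :=
  ∀ (ι A W T V : Type) [Fintype ι] [Group A] [Finite A] [NormedAddCommGroup W] [NormedSpace ℝ W]
    [FiniteDimensional ℝ W] [NormedAddCommGroup T] [NormedSpace ℝ T] [FiniteDimensional ℝ T]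
    [NormedAddCommGroup V] [NormedSpace ℝ V] [FiniteDimensional ℝ V] (S : Setup ι A W T)
    (ν ν' : A → V →L[ℝ] V) (h : IsRep ν) (h' : IsRep ν') (L : V ≃L[ℝ] V),
    (∀ g v, L (ν g v) = ν' g (L v)) → ∀ O F, EG S O F →
    EG (S.susp h h') (O ×ˢ univ) (fun p => (((F p.1).1, L p.2), (F p.1).2)) ∧
    (S.susp h h').cnt (O ×ˢ univ) (fun p => (((F p.1).1, L p.2), (F p.1).2)) =
      (sg (L : V →L[ℝ] V).det : ℤ) * S.cnt O F

end Vale.Agent.P220Z.Deg
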