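import Vale.Agent.P220Z.Deg.Dx

/-!
# The integer degree of a map with compact zero set on an open set
-/

open Set Filter Topology Bornology
open scoped ContDiff

namespace Vale.Agent.P220Z.Deg

open Vale.Agent.P205.TI.Deg

section Germ

variable {X : Type} [NormedAddCommGroup X] {Y : Type} [NormedAddCommGroup Y]

/-- `f` is continuous on the open set `O` and its zero set in `O` is compact. -/
structure Germ (O : Set X) (f : X → Y) : Prop where
  isOpen : IsOpen O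
  cont : ContinuousOn f O
  cpt : IsCompact {x | x ∈ O ∧ f x = 0}

/-- `W` is a bounded open neighbourhood of the zero set with closure in `O`. -/
structure Nbh (O : Set X) (f : X → Y) (W : Set X) : Prop where
  isOpen : IsOpen W
  bdd : IsBounded W
  sub : closure W ⊆ O
  zero : ∀ x ∈ O, f x = 0 → x ∈ W

/-- A homotopy of germs with moving domain `D`, for times in `[0, 1]`. -/
structure HGerm (D : Set (ℝ × X)) (F : ℝ × X → Y) : Prop where
  isOpen : IsOpen D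
  cont : ContinuousOn F {p | p ∈ D ∧ p.1 ∈ Icc (0 : ℝ) 1}
  cpt : IsCompact {p | p ∈ D ∧ p.1 ∈ Icc (0 : ℝ) 1 ∧ F p = 0}

theorem Nbh.ne {O W : Set X} {f : X → Y} (h : Nbh O f W) {x : X} (hx : x ∈ frontier W) :
    f x ≠ 0 := fun h0 => by
  rw [h.isOpen.frontier_eq] at hx
  exact hx.2 (h.zero x (h.sub hx.1) h0)

theorem Nbh.subset {O W : Set X} {f : X → Y} (h : Nbh O f W) : W ⊆ O :=
  subset_closure.trans h.sub

theorem Nbh.inter {O W W' : Set X} {f : X → Y} (h : Nbh O f W) (h' : Nbh O f W') :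
    Nbh O f (W ∩ W') :=
  ⟨h.isOpen.inter h'.isOpen, h.bdd.subset inter_subset_left,
    (closure_mono inter_subset_left).trans h.sub, fun x hx h0 => ⟨h.zero x hx h0, h'.zero x hx h0⟩⟩

theorem Germ.mono {O U : Set X} {f : X → Y} (h : Germ O f) (hU : IsOpen U) (hUO : U ⊆ O)
    (hz : ∀ x ∈ O, f x = 0 → x ∈ U) : Germ U f := by
  refine ⟨hU, h.cont.mono hUO, ?_⟩
  convert h.cpt using 1
  exact Set.ext fun x => ⟨fun hx => ⟨hUO hx.1, hx.2⟩, fun hx => ⟨hz x hx.1 hx.2, hx.2⟩⟩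

theorem Germ.congr {O : Set X} {f g : X → Y} (h : Germ O f) (hfg : ∀ x ∈ O, g x = f x) :
    Germ O g := by
  refine ⟨h.isOpen, h.cont.congr hfg, ?_⟩
  convert h.cpt using 1
  exact Set.ext fun x => and_congr_right fun hx => by rw [hfg x hx]

/-- a piece of a decomposition of the zero set by disjoint open sets -/
theorem Germ.piece {O : Set X} {f : X → Y} (h : Germ O f) {ι : Type*} {s : Set ι} {U : ι → Set X}
    (hU : ∀ i ∈ s, IsOpen (U i)) (hUO : ∀ i ∈ s, U i ⊆ O) (hd : s.PairwiseDisjoint U)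
    (hz : ∀ x ∈ O, f x = 0 → ∃ i ∈ s, x ∈ U i) {i : ι} (hi : i ∈ s) : Germ (U i) f := by
  refine ⟨hU i hi, h.cont.mono (hUO i hi), ?_⟩
  have h1 : IsOpen (⋃ j ∈ s \ {i}, U j) := isOpen_biUnion fun j hj => hU j hj.1
  convert h.cpt.diff h1 using 1
  ext x
  simp only [mem_ofPred_eq, Set.mem_sdiff, mem_iUnion₂, not_exists]
  constructor
  · rintro ⟨h2, h3⟩
    exact ⟨⟨hUO i hi h2, h3⟩, fun j hj hx =>
      disjoint_left.1 (hd hi hj.1 fun e => hj.2 e.symm) h2 hx⟩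
  · rintro ⟨⟨h2, h3⟩, h4⟩
    obtain ⟨j, hj, hx⟩ := hz x h2 h3
    by_cases e : j = i
    · exact ⟨e ▸ hx, h3⟩
    · exact absurd hx (h4 j ⟨hj, e⟩)

theorem HGerm.slice {D : Set (ℝ × X)} {F : ℝ × X → Y} (h : HGerm D F) {t : ℝ}
    (ht : t ∈ Icc (0 : ℝ) 1) : Germ {x | (t, x) ∈ D} fun x => F (t, x) := by
  have hc : Continuous fun x : X => (t, x) := by fun_prop
  refine ⟨h.isOpen.preimage hc, h.cont.comp hc.continuousOn fun x hx => ⟨hx, ht⟩, ?_⟩
  have h1 : IsCompact ({p | p ∈ D ∧ p.1 ∈ Icc (0 : ℝ) 1 ∧ F p = 0} ∩ {p | p.1 = t}) :=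
    h.cpt.inter_right (isClosed_eq continuous_fst continuous_const)
  convert h1.image continuous_snd using 1
  ext x
  constructor
  · exact fun hx => ⟨(t, x), ⟨⟨hx.1, ht, hx.2⟩, rfl⟩, rfl⟩
  · rintro ⟨⟨s, y⟩, ⟨⟨h2, -, h3⟩, h4⟩, rfl⟩
    obtain rfl : s = t := h4
    exact ⟨h2, h3⟩

variable [NormedSpace ℝ X] [FiniteDimensional ℝ X]

theorem Germ.exists_nbh {O : Set X} {f : X → Y} (h : Germ O f) : ∃ W, Nbh O f W := by
  obtain ⟨L, h1, h2, h3⟩ := exists_compact_between h.cpt h.isOpen fun x hx => hx.1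
  exact ⟨interior L, isOpen_interior, h1.isBounded.subset interior_subset,
    (closure_minimal interior_subset h1.isClosed).trans h3, fun x hx h0 => h2 ⟨hx, h0⟩⟩

/-- near a time `t`, a neighbourhood for the slice at `t` stays one and the maps stay close -/
theorem HGerm.near {D : Set (ℝ × X)} {F : ℝ × X → Y} (h : HGerm D F) {t : ℝ}
    (ht : t ∈ Icc (0 : ℝ) 1) {W : Set X} (hW : Nbh {x | (t, x) ∈ D} (fun x => F (t, x)) W)
    {η : ℝ} (hη : 0 < η) : ∀ᶠ s in 𝓝[Icc (0 : ℝ) 1] t,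
      Nbh {x | (s, x) ∈ D} (fun x => F (s, x)) W ∧ ∀ x ∈ closure W, ‖F (s, x) - F (t, x)‖ < η := by
  have hK := compact_closure hW.bdd
  have h1 : ∀ᶠ s in 𝓝 t, ∀ x ∈ closure W, (s, x) ∈ D ∧
      (s ∈ Icc (0 : ℝ) 1 → ‖F (s, x) - F (t, x)‖ < η) := by
    refine hK.eventually_forall_of_forall_eventually fun y hy => ?_
    have hD : ∀ᶠ z in 𝓝 (t, y), z ∈ D := h.isOpen.mem_nhds (hW.sub hy)
    have hD' : ∀ᶠ z : ℝ × X in 𝓝 (t, y), (t, z.2) ∈ D :=
      (show ContinuousAt (fun z : ℝ × X => (t, z.2)) (t, y) by fun_prop).eventually hD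
    have hc := h.cont (t, y) ⟨hW.sub hy, ht⟩
    have c1 := (Metric.tendsto_nhds.1 hc (η / 2) (half_pos hη))
    rw [eventually_nhdsWithin_iff] at c1
    have c2 : ∀ᶠ z : ℝ × X in 𝓝 (t, y), (t, z.2) ∈ {p | p ∈ D ∧ p.1 ∈ Icc (0 : ℝ) 1} →
        dist (F (t, z.2)) (F (t, y)) < η / 2 :=
      (show ContinuousAt (fun z : ℝ × X => (t, z.2)) (t, y) by fun_prop).eventually c1
    filter_upwards [hD, hD', c1, c2] with z a1 a2 a3 a4
    refine ⟨a1, fun hs => ?_⟩
    have a5 := a3 ⟨a1, hs⟩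
    have a6 := a4 ⟨a2, ht⟩
    rw [← dist_eq_norm]
    linarith [dist_triangle_right (F (z.1, z.2)) (F (t, z.2)) (F (t, y))]
  have h2 : IsClosed (Prod.fst '' ({p | p ∈ D ∧ p.1 ∈ Icc (0 : ℝ) 1 ∧ F p = 0} \
      {p | p.2 ∈ W})) :=
    ((h.cpt.diff (hW.isOpen.preimage continuous_snd)).image continuous_fst).isClosed
  have h3 : ∀ᶠ s in 𝓝 t, s ∉ Prod.fst '' ({p | p ∈ D ∧ p.1 ∈ Icc (0 : ℝ) 1 ∧ F p = 0} \
      {p | p.2 ∈ W}) := by
    refine h2.isOpen_compl.mem_nhds ?_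
    rintro ⟨⟨s, y⟩, ⟨⟨a1, -, a2⟩, a3⟩, rfl⟩
    exact a3 (hW.zero y a1 a2)
  filter_upwards [mem_nhdsWithin_of_mem_nhds h1, mem_nhdsWithin_of_mem_nhds h3,
    self_mem_nhdsWithin] with s a1 a2 a3
  refine ⟨⟨hW.isOpen, hW.bdd, fun x hx => (a1 x hx).1, fun x hx h0 => ?_⟩,
    fun x hx => (a1 x hx).2 a3⟩
  by_contra hn
  exact a2 ⟨(s, x), ⟨⟨hx, a3, h0⟩, hn⟩, rfl⟩

end Germ

theorem const_of_near {α : Type*} {n : ℝ → α}
    (h : ∀ t ∈ Icc (0 : ℝ) 1, ∀ᶠ s in 𝓝[Icc (0 : ℝ) 1] t, n s = n t) : n 0 = n 1 := by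
  let : TopologicalSpace α := ⊥
  have : DiscreteTopology α := ⟨rfl⟩
  refine isPreconnected_Icc.constant (f := n) (fun t ht => ?_) ⟨le_rfl, zero_le_one⟩
    ⟨zero_le_one, le_rfl⟩
  rw [ContinuousWithinAt, nhds_discrete, tendsto_pure]
  exact h t ht

variable {X : Type} [NormedAddCommGroup X] [NormedSpace ℝ X] [FiniteDimensional ℝ X]

open Classical in
/-- the degree of a self-map `f` of `X` on the open set `O` -/
noncomputable def pdeg (O : Set X) (f : X → X) : ℤ :=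
  if h : ∃ W, Nbh O f W then ⌊dX f h.choose⌋ else 0

theorem dX_nbh {O W W' : Set X} {f : X → X} (hf : ContinuousOn f O) (h : Nbh O f W)
    (h' : Nbh O f W') : dX f W = dX f W' := by
  rw [dX_excision h.isOpen h.bdd (hf.mono h.sub) (h.inter h').isOpen inter_subset_left
      fun x hx h0 => (h.inter h').zero x (h.sub hx) h0,
    dX_excision h'.isOpen h'.bdd (hf.mono h'.sub) (h.inter h').isOpen inter_subset_right
      fun x hx h0 => (h.inter h').zero x (h'.sub hx) h0]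

theorem dX_reg {O W : Set X} {f g : X → X} (hf : ContinuousOn f O) (h : Nbh O f W)
    (hg : ContDiff ℝ ∞ g)
    (hne : ∀ x ∈ frontier W, ∀ t ∈ Icc (0 : ℝ) 1, (1 - t) • f x + t • g x ≠ 0)
    (hreg : ∀ x ∈ W, g x = 0 → (fderiv ℝ g x).det ≠ 0) :
    ∃ Z : Finset X, (∀ z, z ∈ Z ↔ z ∈ W ∧ g z = 0) ∧
      dX f W = ((∑ z ∈ Z, sg (fderiv ℝ g z).det : ℤ) : ℝ) := by
  rw [dX_homotopy h.isOpen h.bdd (hf.mono h.sub) hg.continuous.continuousOn hne]
  refine dX_regular hg h.isOpen h.bdd (fun x hx => ?_) hreg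
  simpa using hne x hx 1 ⟨zero_le_one, le_rfl⟩

theorem Nbh.exists_reg {O W : Set X} {f : X → X} (hf : ContinuousOn f O) (h : Nbh O f W) :
    ∃ g : X → X, ContDiff ℝ ∞ g ∧ (∀ x ∈ frontier W, ‖g x - f x‖ < ‖f x‖) ∧
      ∀ x, g x = 0 → (fderiv ℝ g x).det ≠ 0 := by
  obtain ⟨m, hm, h1⟩ := exists_lower (compact_frontier h.bdd)
    (hf.mono (frontier_subset_closure.trans h.sub)) fun x hx => h.ne hx
  obtain ⟨g, h2, h3, h4⟩ := exists_regular (compact_closure h.bdd) (hf.mono h.sub) hm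
  exact ⟨g, h2, fun x hx => (h3 x (frontier_subset_closure hx)).trans_le (h1 x hx), h4⟩

theorem pdeg_eq {O W : Set X} {f : X → X} (hf : ContinuousOn f O) (h : Nbh O f W) :
    (pdeg O f : ℝ) = dX f W := by
  have h0 : ∃ W, Nbh O f W := ⟨W, h⟩
  obtain ⟨g, h1, h2, h3⟩ := h.exists_reg hf
  obtain ⟨Z, -, h4⟩ := dX_reg hf h h1 (fun x hx t ht => seg_ne (h2 x hx) ht) fun x _ => h3 x
  rw [pdeg, dif_pos h0, dX_nbh hf h0.choose_spec h, h4, Int.floor_intCast]

/-- the degree from a regular smooth replacement -/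
theorem pdeg_reg {O W : Set X} {f g : X → X} (hf : ContinuousOn f O) (h : Nbh O f W)
    (hg : ContDiff ℝ ∞ g)
    (hne : ∀ x ∈ frontier W, ∀ t ∈ Icc (0 : ℝ) 1, (1 - t) • f x + t • g x ≠ 0)
    (hreg : ∀ x ∈ W, g x = 0 → (fderiv ℝ g x).det ≠ 0) :
    ∃ Z : Finset X, (∀ z, z ∈ Z ↔ z ∈ W ∧ g z = 0) ∧
      pdeg O f = ∑ z ∈ Z, sg (fderiv ℝ g z).det := by
  obtain ⟨Z, h1, h2⟩ := dX_reg hf h hg hne hreg
  refine ⟨Z, h1, ?_⟩
  rw [← pdeg_eq hf h] at h2
  exact_mod_cast h2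

/-- two germs with a common neighbourhood and no zero on the segments over its frontier -/
theorem pdeg_seg {O O' W : Set X} {f g : X → X} (hf : ContinuousOn f O) (hg : ContinuousOn g O')
    (h : Nbh O f W) (h' : Nbh O' g W)
    (hne : ∀ x ∈ frontier W, ∀ t ∈ Icc (0 : ℝ) 1, (1 - t) • f x + t • g x ≠ 0) :
    pdeg O f = pdeg O' g := by
  have := dX_homotopy h.isOpen h.bdd (hf.mono h.sub) (hg.mono h'.sub) hne
  rw [← pdeg_eq hf h, ← pdeg_eq hg h'] at this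
  exact_mod_cast this

theorem pdeg_congr {O : Set X} {f g : X → X} (h : Germ O f) (hfg : ∀ x ∈ O, g x = f x) :
    pdeg O g = pdeg O f := by
  obtain ⟨W, hW⟩ := h.exists_nbh
  have hW' : Nbh O g W := ⟨hW.isOpen, hW.bdd, hW.sub, fun x hx h0 =>
    hW.zero x hx (by rwa [← hfg x hx])⟩
  refine pdeg_seg (h.congr hfg).cont h.cont hW' hW fun x hx t _ => ?_
  rw [hfg x (hW.sub (frontier_subset_closure hx)), ← add_smul, sub_add_cancel, one_smul]
  exact hW.ne hx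

/-- excision -/
theorem pdeg_mono {O U : Set X} {f : X → X} (h : Germ O f) (hU : IsOpen U) (hUO : U ⊆ O)
    (hz : ∀ x ∈ O, f x = 0 → x ∈ U) : pdeg U f = pdeg O f := by
  obtain ⟨W, hW⟩ := (h.mono hU hUO hz).exists_nbh
  have hW' : Nbh O f W := ⟨hW.isOpen, hW.bdd, hW.sub.trans hUO, fun x hx h0 =>
    hW.zero x (hz x hx h0) h0⟩
  have := (pdeg_eq (h.cont.mono hUO) hW).trans (pdeg_eq h.cont hW').symm
  exact_mod_cast this

/-- additivity -/
theorem pdeg_sum {O : Set X} {f : X → X} (h : Germ O f) {ι : Type*} (s : Finset ι)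
    {U : ι → Set X} (hU : ∀ i ∈ s, IsOpen (U i)) (hUO : ∀ i ∈ s, U i ⊆ O)
    (hd : (s : Set ι).PairwiseDisjoint U) (hz : ∀ x ∈ O, f x = 0 → ∃ i ∈ s, x ∈ U i) :
    pdeg O f = ∑ i ∈ s, pdeg (U i) f := by
  classical
  have hp : ∀ i, i ∈ s → ∃ W, Nbh (U i) f W := fun i hi =>
    (h.piece (s := s) hU hUO hd hz hi).exists_nbh
  choose! W hW using hp
  have hN : Nbh O f (⋃ i ∈ s, W i) := by
    refine ⟨isOpen_biUnion fun i hi => (hW i hi).isOpen,
      (isBounded_biUnion_finset s).2 fun i hi => (hW i hi).bdd, ?_, fun x hx h0 => ?_⟩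
    · rw [Finset.closure_biUnion]
      exact iUnion₂_subset fun i hi => (hW i hi).sub.trans (hUO i hi)
    · obtain ⟨i, hi, hxi⟩ := hz x hx h0
      exact mem_biUnion hi ((hW i hi).zero x hxi h0)
  have h1 := dX_sum hN.isOpen hN.bdd (h.cont.mono hN.sub) s (U := W)
    (fun i hi => (hW i hi).isOpen) (fun i hi => subset_biUnion_of_mem (u := W) hi)
    (fun i hi j hj hij => (hd hi hj hij).mono (hW i hi).subset (hW j hj).subset)
    fun x hx h0 => by simpa using hN.zero x (hN.sub hx) h0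
  rw [← pdeg_eq h.cont hN, Finset.sum_congr rfl fun i hi =>
    (pdeg_eq (h.cont.mono (hUO i hi)) (hW i hi)).symm] at h1
  exact_mod_cast h1

theorem pdeg_empty {O : Set X} {f : X → X} (hO : IsOpen O) (hf : ContinuousOn f O)
    (h : ∀ x ∈ O, f x ≠ 0) : pdeg O f = 0 := by
  have h1 : Germ O f := ⟨hO, hf, by
    convert isCompact_empty
    exact eq_empty_of_forall_notMem fun x hx => h x hx.1 hx.2⟩
  simpa using pdeg_sum h1 (∅ : Finset Unit) (U := fun _ => ∅) (by simp) (by simp) (by simp)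
    fun x hx h0 => absurd h0 (h x hx)

theorem pdeg_add {O U U' : Set X} {f : X → X} (h : Germ O f) (hU : IsOpen U) (hU' : IsOpen U')
    (h1 : U ⊆ O) (h2 : U' ⊆ O) (hd : Disjoint U U') (hz : ∀ x ∈ O, f x = 0 → x ∈ U ∨ x ∈ U') :
    pdeg O f = pdeg U f + pdeg U' f := by
  have := pdeg_sum h (Finset.univ : Finset Bool) (U := fun b => bif b then U else U')
    (fun b _ => by cases b <;> assumption) (fun b _ => by cases b <;> assumption)
    (fun a _ b _ hab => by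
      cases a <;> cases b
      · exact absurd rfl hab
      · exact hd.symm
      · exact hd
      · exact absurd rfl hab)
    fun x hx h0 => (hz x hx h0).elim (fun a => ⟨true, by simp, a⟩) fun a => ⟨false, by simp, a⟩
  simpa using this

/-- homotopy invariance with moving domain -/
theorem pdeg_htpy {D : Set (ℝ × X)} {F : ℝ × X → X} (h : HGerm D F) :
    pdeg {x | (0, x) ∈ D} (fun x => F (0, x)) = pdeg {x | (1, x) ∈ D} fun x => F (1, x) := by
  refine const_of_near (n := fun t => pdeg {x | (t, x) ∈ D} fun x => F (t, x)) fun t ht => ?_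
  obtain ⟨W, hW⟩ := (h.slice ht).exists_nbh
  obtain ⟨m, hm, h1⟩ := exists_lower (compact_frontier hW.bdd)
    ((h.slice ht).cont.mono (frontier_subset_closure.trans hW.sub)) fun x hx => hW.ne hx
  filter_upwards [h.near ht hW hm, self_mem_nhdsWithin] with s hs hs'
  exact (pdeg_seg (h.slice ht).cont (h.slice hs').cont hW hs.1 fun x hx u hu =>
    seg_ne ((hs.2 x (frontier_subset_closure hx)).trans_le (h1 x hx)) hu).symm

/-- homotopy invariance with fixed domain -/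
theorem pdeg_htpy' {O : Set X} (hO : IsOpen O) {F : ℝ × X → X}
    (hF : ContinuousOn F (Icc (0 : ℝ) 1 ×ˢ O))
    (hc : IsCompact {p : ℝ × X | p.2 ∈ O ∧ p.1 ∈ Icc (0 : ℝ) 1 ∧ F p = 0}) :
    pdeg O (fun x => F (0, x)) = pdeg O fun x => F (1, x) :=
  pdeg_htpy (D := {p | p.2 ∈ O}) ⟨hO.preimage continuous_snd,
    hF.mono fun _ hp => ⟨hp.2, hp.1⟩, hc⟩

end Vale.Agent.P220Z.Deg
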