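import Vale.Agent.P220Z.Deg.Basic

/-!
# The change of the intersection number along a homotopy
-/

open Set Filter Topology Bornology
open scoped ContDiff

namespace Vale.Agent.P220Z.Deg

set_option linter.unusedSectionVars false

variable {ι A W T : Type} [Fintype ι] [Group A] [NormedAddCommGroup W] [NormedSpace ℝ W]
  [NormedAddCommGroup T] [NormedSpace ℝ T]

/-- positive part -/
def posP (r : ι → ℝ) : ι → ℝ := fun i => max (r i) 0

/-- negative part -/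
def negP (r : ι → ℝ) : ι → ℝ := fun i => min (r i) 0

/-- the time -/
noncomputable def tm (τ : ℝ) (r : ι → ℝ) : ℝ := max 0 (τ - ‖negP r‖)

/-- the map on the box -/
noncomputable def Setup.Bx (S : Setup ι A W T) (H : ℝ × W → T × (ι → ℂ))
    (q : ℝ × ((ι → ℝ) × W)) : (ι → ℝ) × W :=
  S.e (H (tm q.1 q.2.1, q.2.2) - rv T (posP q.2.1))

/-- the region that carries the face number `i` -/
def Side (i : ι) : Set (ι → ℝ) := {r | r i < 0 ∧ ∀ j, j ≠ i → 0 < r j}

theorem posP_nonneg (r : ι → ℝ) (i : ι) : 0 ≤ posP r i := le_max_right _ _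

theorem tm_mem {τ : ℝ} (h : τ ∈ Icc (0 : ℝ) 1) (r : ι → ℝ) : tm τ r ∈ Icc (0 : ℝ) 1 :=
  ⟨le_max_left _ _, max_le zero_le_one (by linarith [h.2, norm_nonneg (negP r)])⟩

theorem isOpen_side (i : ι) : IsOpen (Side i) := by
  simp only [Side, ofPred_and, ofPred_forall]
  exact (isOpen_lt (continuous_apply i) continuous_const).inter
    (isOpen_iInter_of_finite fun j => isOpen_iInter_of_finite fun _ =>
      isOpen_lt continuous_const (continuous_apply j))

theorem posP_orth {r : ι → ℝ} (h : r ∈ Orth ι) : posP r = r :=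
  funext fun i => max_eq_left (h i).le

theorem negP_zero {r : ι → ℝ} (h : ∀ i, 0 ≤ r i) : negP r = 0 :=
  funext fun i => min_eq_right (h i)

theorem orth_of_not_face {r : ι → ℝ} (h : rv T (posP r) ∉ Face ι T) : r ∈ Orth ι := fun i => by
  by_contra hn
  exact h (rv_mem_face (posP_nonneg r) (i := i) (max_eq_right (not_lt.1 hn)))

theorem Setup.Bx_zero (S : Setup ι A W T) (H : ℝ × W → T × (ι → ℂ)) (q : ℝ × ((ι → ℝ) × W)) :
    S.Bx H q = 0 ↔ H (tm q.1 q.2.1, q.2.2) = rv T (posP q.2.1) := by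
  rw [Setup.Bx, map_eq_zero_iff _ S.e.injective, sub_eq_zero]

variable [FiniteDimensional ℝ W]

theorem Setup.box (S : Setup ι A W T) {U : Set W} (hU : IsOpen U) (hb : IsBounded U)
    {H : ℝ × W → T × (ι → ℂ)} (hH : ContinuousOn H (Icc (0 : ℝ) 1 ×ˢ closure U))
    (hfr : ∀ s ∈ Icc (0 : ℝ) 1, ∀ x ∈ frontier U, H (s, x) ∉ Star ι T)
    (h0 : ∀ x ∈ closure U, H (0, x) ∉ Face ι T) (h1 : ∀ x ∈ closure U, H (1, x) ∉ Face ι T)
    (h2 : ∀ s ∈ Icc (0 : ℝ) 1, ∀ x ∈ closure U, ∀ r : ι → ℝ, (∀ k, 0 ≤ r k) → ∀ i j, i ≠ j →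
      r i = 0 → r j = 0 → H (s, x) ≠ rv T r) :
    (∀ i, Germ (Side i ×ˢ U) fun p => S.Bx H (1, p)) ∧
    S.num U (fun x => H (0, x)) = S.num U (fun x => H (1, x)) +
      ∑ i, pdeg (Side i ×ˢ U) fun p => S.Bx H (1, p) := by
  classical
  have hK := compact_closure hb
  have hc : ContinuousOn (S.Bx H) (Icc (0 : ℝ) 1 ×ˢ (univ ×ˢ closure U)) := by
    refine S.e.continuous.comp_continuousOn ((hH.comp (Continuous.continuousOn ?_)
      fun q hq => ⟨tm_mem hq.1 _, hq.2.2⟩).sub (Continuous.continuousOn ?_))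
    · unfold tm negP
      fun_prop
    · exact continuous_rv.comp (by unfold posP; fun_prop)
  obtain ⟨M, hM⟩ := (isCompact_Icc.prod hK).exists_bound_of_continuousOn hH
  have hcpt : IsCompact {q : ℝ × ((ι → ℝ) × W) | q.2 ∈ univ ×ˢ U ∧ q.1 ∈ Icc (0 : ℝ) 1 ∧
      S.Bx H q = 0} := by
    have a1 := hc.preimage_isClosed_of_isClosed
      (isClosed_Icc.prod (isClosed_univ.prod isClosed_closure)) (isClosed_singleton (x := 0))
    have a2 : IsCompact (Icc (0 : ℝ) 1 ×ˢ (Metric.closedBall (0 : ι → ℝ) (|M| + 1) ×ˢ closure U)) :=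
      isCompact_Icc.prod ((isCompact_closedBall _ _).prod hK)
    refine (Set.ext fun q => ?_ : {q : ℝ × ((ι → ℝ) × W) | q.2 ∈ univ ×ˢ U ∧ q.1 ∈ Icc (0 : ℝ) 1 ∧
      S.Bx H q = 0} = _) ▸ a2.of_isClosed_subset a1 ?_
    · refine ⟨fun hq => ⟨⟨hq.2.1, trivial, subset_closure hq.1.2⟩, hq.2.2⟩,
        fun hq => ⟨⟨trivial, ?_⟩, hq.1.1, hq.2⟩⟩
      by_contra hn
      refine hfr _ (tm_mem hq.1.1 q.2.1) q.2.2 (by rw [hU.frontier_eq]; exact ⟨hq.1.2.2, hn⟩) ?_
      rw [(S.Bx_zero H q).1 hq.2]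
      exact rv_mem_star (posP_nonneg _)
    · rintro ⟨τ, r, x⟩ ⟨⟨b1, -, b2⟩, b3⟩
      have b4 : H (tm τ r, x) = rv T (posP r) := (S.Bx_zero H _).1 b3
      refine ⟨b1, mem_closedBall_zero_iff.2 ((pi_norm_le_iff_of_nonneg (by positivity)).2
        fun i => ?_), b2⟩
      have b5 : ‖negP r‖ ≤ 1 := by
        by_contra hn
        have b6 : tm τ r = 0 := max_eq_left (by linarith [b1.2, not_le.1 hn])
        rw [b6] at b4
        have b7 := orth_of_not_face (b4 ▸ h0 x b2)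
        rw [negP_zero fun k => (b7 k).le, norm_zero] at hn
        exact hn zero_le_one
      have b6 : ‖posP r i‖ ≤ M := by
        have := ((norm_le_pi_norm _ i).trans (norm_snd_le _)).trans
          (hM (tm τ r, x) ⟨tm_mem b1 r, b2⟩)
        rw [b4] at this
        simpa [rv] using this
      have b7 := (norm_le_pi_norm (negP r) i).trans b5
      have b8 : r i = posP r i + negP r i := by simp [posP, negP]
      show ‖r i‖ ≤ _
      rw [b8]
      linarith [norm_add_le (posP r i) (negP r i), le_abs_self M]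
  have hO : IsOpen ((univ : Set (ι → ℝ)) ×ˢ U) := isOpen_univ.prod hU
  have hc' : ContinuousOn (S.Bx H) (Icc (0 : ℝ) 1 ×ˢ (univ ×ˢ U)) :=
    hc.mono (prod_mono le_rfl (prod_mono le_rfl subset_closure))
  have hG : HGerm {q : ℝ × ((ι → ℝ) × W) | q.2 ∈ univ ×ˢ U} (S.Bx H) :=
    ⟨hO.preimage continuous_snd, hc'.mono fun _ hp => ⟨hp.2, hp.1⟩, hcpt⟩
  have g0 : Germ (univ ×ˢ U) fun p => S.Bx H (0, p) := hG.slice ⟨le_rfl, zero_le_one⟩
  have g1 : Germ (univ ×ˢ U) fun p => S.Bx H (1, p) := hG.slice ⟨zero_le_one, le_rfl⟩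
  have hOr : IsOpen (Orth ι ×ˢ U) := isOpen_orth.prod hU
  have hsub : ∀ V : Set (ι → ℝ), V ×ˢ U ⊆ univ ×ˢ U := fun V => prod_mono (subset_univ _) le_rfl
  have eq : ∀ τ ∈ Icc (0 : ℝ) 1, ∀ p ∈ Orth ι ×ˢ U,
      S.Th (fun x => H (τ, x)) p = S.Bx H (τ, p) := by
    intro τ hτ p hp
    rw [S.Th_eq, Setup.Bx, posP_orth hp.1, tm, negP_zero fun i => (hp.1 i).le, norm_zero, sub_zero,
      max_eq_right hτ.1]
  have z0 : ∀ p ∈ univ ×ˢ U, S.Bx H (0, p) = 0 → p ∈ Orth ι ×ˢ U := by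
    intro p hp h
    rw [S.Bx_zero, show tm 0 p.1 = 0 from max_eq_left (by simp)] at h
    exact ⟨orth_of_not_face (h ▸ h0 _ (subset_closure hp.2)), hp.2⟩
  set V : Option ι → Set ((ι → ℝ) × W) := fun o => (o.elim (Orth ι) Side) ×ˢ U with hV
  have v1 : ∀ o ∈ (Finset.univ : Finset (Option ι)), IsOpen (V o) := by
    rintro (_ | i) -
    · exact hOr
    · exact (isOpen_side i).prod hU
  have v2 : ((Finset.univ : Finset (Option ι)) : Set (Option ι)).PairwiseDisjoint V := by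
    rintro (_ | i) - (_ | j) - hij <;> refine disjoint_left.2 fun p hp hp' => ?_
    · exact hij rfl
    · exact lt_asymm hp'.1.1 (hp.1 j)
    · exact lt_asymm hp.1.1 (hp'.1 i)
    · exact lt_asymm hp.1.1 (hp'.1.2 i fun e => hij (congrArg some e))
  have v3 : ∀ p ∈ univ ×ˢ U, S.Bx H (1, p) = 0 →
      ∃ o ∈ (Finset.univ : Finset (Option ι)), p ∈ V o := by
    intro p hp h
    rw [S.Bx_zero] at h
    by_cases hn : ∀ i, 0 ≤ p.1 i
    · rw [show tm 1 p.1 = 1 by simp [tm, negP_zero hn]] at h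
      exact ⟨none, Finset.mem_univ _, orth_of_not_face (h ▸ h1 _ (subset_closure hp.2)), hp.2⟩
    · push Not at hn
      obtain ⟨i, hi⟩ := hn
      refine ⟨some i, Finset.mem_univ _, ⟨hi, fun j hj => ?_⟩, hp.2⟩
      by_contra hn
      exact h2 _ (tm_mem ⟨zero_le_one, le_rfl⟩ _) _ (subset_closure hp.2) _ (posP_nonneg _) j i hj
        (max_eq_right (not_lt.1 hn)) (max_eq_right hi.le) h
  have gp := fun o => g1.piece (s := ((Finset.univ : Finset (Option ι)) : Set (Option ι))) v1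
    (fun o _ => hsub _) v2 v3 (i := o) (Finset.mem_univ o)
  refine ⟨fun i => gp (some i), ?_⟩
  have e1 : pdeg (univ ×ˢ U) (fun p => S.Bx H (0, p)) =
      pdeg (univ ×ˢ U) fun p => S.Bx H (1, p) := pdeg_htpy' hO hc' hcpt
  rw [pdeg_sum g1 Finset.univ v1 (fun o _ => hsub _) v2 v3, Fintype.sum_option,
    ← pdeg_mono g0 hOr (hsub _) z0] at e1
  rw [Setup.num, Setup.num, pdeg_congr (g0.mono hOr (hsub _) z0) (eq 0 ⟨le_rfl, zero_le_one⟩),
    pdeg_congr (O := Orth ι ×ˢ U) (gp none) (eq 1 ⟨zero_le_one, le_rfl⟩), e1]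
  rfl

/-- a homotopy through generic maps does not change the intersection number -/
theorem Setup.num_htpy (S : Setup ι A W T) {U : Set W} (hU : IsOpen U) (hb : IsBounded U)
    {H : ℝ × W → T × (ι → ℂ)} (hH : ContinuousOn H (Icc (0 : ℝ) 1 ×ˢ closure U))
    (hfr : ∀ s ∈ Icc (0 : ℝ) 1, ∀ x ∈ frontier U, H (s, x) ∉ Star ι T)
    (h0 : ∀ s ∈ Icc (0 : ℝ) 1, ∀ x ∈ closure U, H (s, x) ∉ Face ι T) :
    S.num U (fun x => H (0, x)) = S.num U fun x => H (1, x) := by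
  obtain ⟨h1, h2⟩ := S.box hU hb hH hfr (h0 0 ⟨le_rfl, zero_le_one⟩) (h0 1 ⟨zero_le_one, le_rfl⟩)
    fun s hs x hx r hr i _ _ hi _ h => h0 s hs x hx (h ▸ rv_mem_face hr hi)
  rw [h2, Finset.sum_eq_zero, add_zero]
  refine fun i _ => pdeg_empty (h1 i).isOpen (h1 i).cont fun p hp h => ?_
  rw [S.Bx_zero] at h
  exact h0 _ (tm_mem ⟨zero_le_one, le_rfl⟩ _) _ (subset_closure hp.2)
    (h ▸ rv_mem_face (posP_nonneg _) (i := i) (max_eq_right hp.1.1.le))

/-- an equivariant homotopy that misses the edges does not change the number modulo five -/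
theorem Setup.num_mod (hD : StDiv) (S : Setup ι A W T) {U : Set W} (hU : IsOpen U)
    (hb : IsBounded U) (hi : ∀ g, ∀ x ∈ U, S.ac g x ∈ U) (hf : ∀ g, ∀ x ∈ U, S.ac g x = x → g = 1)
    {H : ℝ × W → T × (ι → ℂ)} (hH : ContinuousOn H (Icc (0 : ℝ) 1 ×ˢ closure U))
    (he : ∀ g s x, H (s, S.ac g x) = S.act g (H (s, x)))
    (hfr : ∀ s ∈ Icc (0 : ℝ) 1, ∀ x ∈ frontier U, H (s, x) ∉ Star ι T)
    (h0 : ∀ x ∈ closure U, H (0, x) ∉ Face ι T) (h1 : ∀ x ∈ closure U, H (1, x) ∉ Face ι T)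
    (h2 : ∀ s ∈ Icc (0 : ℝ) 1, ∀ x ∈ closure U, ∀ r : ι → ℝ, (∀ k, 0 ≤ r k) → ∀ i j, i ≠ j →
      r i = 0 → r j = 0 → H (s, x) ≠ rv T r) :
    ((S.num U fun x => H (0, x) : ℤ) : ZMod 5) = (S.num U fun x => H (1, x) : ℤ) := by
  obtain ⟨h3, h4⟩ := S.box hU hb hH hfr h0 h1 h2
  rw [h4, Int.cast_add, add_eq_left, ZMod.intCast_zmod_eq_zero_iff_dvd]
  refine Finset.dvd_sum fun i _ => ?_
  set a := (ContinuousLinearMap.id ℝ (ι → ℝ)).prodMap (S.ac (S.a i)) with ha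
  set b := S.e.toContinuousLinearMap.comp ((S.actL (S.a i)).comp S.e.symm.toContinuousLinearMap)
    with hb'
  have r1 : IsRep fun g => (ContinuousLinearMap.id ℝ (ι → ℝ)).prodMap (S.ac g) :=
    ⟨fun x => Prod.ext rfl (S.hac.one x.2), fun g k x => Prod.ext rfl (S.hac.mul g k x.2)⟩
  have r2 : IsRep fun g =>
      S.e.toContinuousLinearMap.comp ((S.actL g).comp S.e.symm.toContinuousLinearMap) :=
    ⟨fun x => by simp [S.isRep_actL.one], fun g k x => by simp [S.isRep_actL.mul]⟩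
  refine hD _ a b (ContinuousLinearMap.ext fun x => ?_) (ContinuousLinearMap.ext fun x => ?_) _ _
    (h3 i) (fun p hp => ⟨hp.1, hi _ _ hp.2⟩)
    (fun p hp h => S.a_ne i (hf _ _ hp.2 (congrArg Prod.snd h))) fun p hp => ?_
  · rw [ha, r1.pow, S.a_pow, r1.one]
    rfl
  · rw [hb', r2.pow, S.a_pow, r2.one]
    rfl
  · have e1 : S.actL (S.a i) (rv T (posP p.1)) = rv T (posP p.1) := by
      refine Prod.ext (map_zero (S.τ _)) (funext fun k => ?_)
      show S.χ k (S.a i) * (posP p.1 k : ℂ) = posP p.1 k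
      by_cases hk : k = i
      · rw [hk, show posP p.1 i = 0 from max_eq_right hp.1.1.le]
        simp
      · rw [S.χ_a i k hk, one_mul]
    show S.e (H (tm 1 p.1, S.ac (S.a i) p.2) - rv T (posP p.1)) =
      S.e (S.actL (S.a i) (S.e.symm (S.e (H (tm 1 p.1, p.2) - rv T (posP p.1)))))
    rw [S.e.symm_apply_apply, map_sub (S.actL _), e1, he, S.actL_apply]

end Vale.Agent.P220Z.Deg
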