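import Vale.Agent.P220Z.Deg.Box

/-!
# The count modulo five: proofs
-/

open Set Filter Topology Bornology
open scoped ContDiff

namespace Vale.Agent.P220Z.Deg

set_option linter.unusedSectionVars false

variable {ι A W T : Type} [Fintype ι] [Group A] [Finite A] [NormedAddCommGroup W] [NormedSpace ℝ W]
  [FiniteDimensional ℝ W] [NormedAddCommGroup T] [NormedSpace ℝ T] [FiniteDimensional ℝ T]
  {S : Setup ι A W T}

theorem inv_closure {U : Set W} (h : ∀ g, ∀ x ∈ U, S.ac g x ∈ U) (g : A) :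
    ∀ x ∈ closure U, S.ac g x ∈ closure U := fun _ hx =>
  MapsTo.closure (fun x hx => h g x hx) (S.ac g).continuous hx

theorem seg_cont {X Y : Type} [TopologicalSpace X] [NormedAddCommGroup Y] [NormedSpace ℝ Y]
    {K : Set X} {f g : X → Y} (hf : ContinuousOn f K) (hg : ContinuousOn g K) (J : Set ℝ) :
    ContinuousOn (fun q : ℝ × X => (1 - q.1) • f q.2 + q.1 • g q.2) (J ×ˢ K) :=
  ((continuous_const.sub continuous_fst).continuousOn.smul
    (hf.comp continuousOn_snd fun _ hq => hq.2)).add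
    (continuousOn_fst.smul (hg.comp continuousOn_snd fun _ hq => hq.2))

/-- a small change of a generic map does not change the intersection number -/
theorem num_close {U : Set W} (hU : IsOpen U) (hb : IsBounded U) {F : W → T × (ι → ℂ)}
    (hF : ContinuousOn F (closure U)) (h1 : ∀ x ∈ frontier U, F x ∉ Star ι T)
    (h2 : ∀ x ∈ closure U, F x ∉ Face ι T) : ∃ ε > 0, ∀ F' : W → T × (ι → ℂ),
      ContinuousOn F' (closure U) → (∀ x ∈ closure U, ‖F' x - F x‖ < ε) →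
      (∀ x ∈ closure U, F' x ∉ Face ι T) ∧ S.num U F = S.num U F' := by
  obtain ⟨ε₁, a1, a2⟩ := exists_margin (compact_frontier hb) (hF.mono frontier_subset_closure)
    isClosed_star h1
  obtain ⟨ε₂, b1, b2⟩ := exists_margin (compact_closure hb) hF isClosed_face h2
  refine ⟨min ε₁ ε₂, lt_min a1 b1, fun F' hF' hc =>
    ⟨fun x hx => b2 x hx _ ((hc x hx).trans_le (min_le_right _ _)), ?_⟩⟩
  have := S.num_htpy hU hb (seg_cont hF hF' _)
    (fun s hs x hx => a2 x hx _ (norm_seg_left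
      ((hc x (frontier_subset_closure hx)).trans_le (min_le_left _ _)) hs))
    fun s hs x hx => b2 x hx _ (norm_seg_left ((hc x hx).trans_le (min_le_right _ _)) hs)
  simpa using this

/-- two generic equivariant maps joined by a segment that misses the star over the frontier -/
theorem num_seg (hG : StGP0) (hD : StDiv) {U : Set W} (hU : IsOpen U) (hb : IsBounded U)
    (hi : ∀ g, ∀ x ∈ U, S.ac g x ∈ U) (hf : ∀ g, ∀ x ∈ closure U, S.ac g x = x → g = 1)
    {F F' : W → T × (ι → ℂ)} (hF : ContinuousOn F (closure U)) (hF' : ContinuousOn F' (closure U))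
    (he : ∀ g, ∀ x ∈ closure U, F (S.ac g x) = S.act g (F x))
    (he' : ∀ g, ∀ x ∈ closure U, F' (S.ac g x) = S.act g (F' x))
    (hs : ∀ x ∈ frontier U, ∀ t ∈ Icc (0 : ℝ) 1, (1 - t) • F x + t • F' x ∉ Star ι T)
    (hg : ∀ x ∈ closure U, F x ∉ Face ι T) (hg' : ∀ x ∈ closure U, F' x ∉ Face ι T) :
    ((S.num U F : ℤ) : ZMod 5) = (S.num U F' : ℤ) := by
  obtain ⟨ε₀, a1, a2⟩ := num_close (S := S) hU hb hF
    (fun x hx => by simpa using hs x hx 0 ⟨le_rfl, zero_le_one⟩) hg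
  obtain ⟨ε₁, b1, b2⟩ := num_close (S := S) hU hb hF'
    (fun x hx => by simpa using hs x hx 1 ⟨zero_le_one, le_rfl⟩) hg'
  obtain ⟨ε₂, c1, c2⟩ := exists_margin (isCompact_Icc.prod (compact_frontier hb))
    (seg_cont (hF.mono frontier_subset_closure) (hF'.mono frontier_subset_closure) (Icc 0 1))
    isClosed_star fun q hq => hs q.2 hq.2 q.1 hq.1
  have r1 : IsRep fun g => (ContinuousLinearMap.id ℝ ℝ).prodMap (S.ac g) :=
    ⟨fun x => Prod.ext rfl (S.hac.one x.2), fun g k x => Prod.ext rfl (S.hac.mul g k x.2)⟩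
  obtain ⟨H, h1, h2, h3, h4⟩ := gp_bad hG S r1 (isCompact_Icc.prod (compact_closure hb))
    (fun g q hq => ⟨hq.1, inv_closure hi g _ hq.2⟩)
    (fun g q hq h => hf g _ hq.2 (congrArg Prod.snd h)) (seg_cont hF hF' (Icc 0 1))
    (fun g q hq => by
      show (1 - q.1) • F (S.ac g q.2) + q.1 • F' (S.ac g q.2) =
        S.actL g ((1 - q.1) • F q.2 + q.1 • F' q.2)
      rw [he g _ hq.2, he' g _ hq.2, map_add, map_smul, map_smul]
      rfl) (n := 2) two_pos (by simp; omega) (lt_min (lt_min a1 b1) c1)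
  have k0 : Continuous fun x : W => H (0, x) := h1.continuous.comp (by fun_prop)
  have k1 : Continuous fun x : W => H (1, x) := h1.continuous.comp (by fun_prop)
  obtain ⟨d1, d2⟩ := a2 _ k0.continuousOn fun x hx => by
    simpa using (h3 (0, x) ⟨⟨le_rfl, zero_le_one⟩, hx⟩).trans_le
      ((min_le_left _ _).trans (min_le_left _ _))
  obtain ⟨d3, d4⟩ := b2 _ k1.continuousOn fun x hx => by
    simpa using (h3 (1, x) ⟨⟨zero_le_one, le_rfl⟩, hx⟩).trans_le
      ((min_le_left _ _).trans (min_le_right _ _))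
  rw [d2, d4]
  classical
  refine S.num_mod hD hU hb hi (fun g x hx => hf g x (subset_closure hx))
    h1.continuous.continuousOn (fun g s x => h2 g (s, x))
    (fun s hs x hx => c2 (s, x) ⟨hs, hx⟩ _
      ((h3 (s, x) ⟨hs, frontier_subset_closure hx⟩).trans_le (min_le_right _ _))) d1 d3
    fun s hs x hx r _ i j hij hi hj h => h4 (s, x) ⟨hs, hx⟩ ?_
  rw [h]
  refine rv_mem_bad _ {i, j} (by rw [Finset.card_pair hij]) fun k hk => ?_
  rcases Finset.mem_insert.1 hk with rfl | hk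
  · exact hi
  · rwa [Finset.mem_singleton.1 hk]

/-- an invariant bounded open neighbourhood of the preimage of the star -/
structure ENbh (S : Setup ι A W T) (O : Set W) (F : W → T × (ι → ℂ)) (U : Set W) : Prop where
  isOpen : IsOpen U
  bdd : IsBounded U
  sub : closure U ⊆ O
  zero : ∀ x ∈ O, F x ∈ Star ι T → x ∈ U
  inv : ∀ g, ∀ x ∈ U, S.ac g x ∈ U

variable {O U U' : Set W} {F F' F'' : W → T × (ι → ℂ)}

theorem Repl.enbh (h : Repl S O F U F') : ENbh S O F U := ⟨h.isOpen, h.bdd, h.sub, h.zero, h.inv⟩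

theorem ENbh.ne (h : ENbh S O F U) {x : W} (hx : x ∈ frontier U) : F x ∉ Star ι T := fun h0 => by
  rw [h.isOpen.frontier_eq] at hx
  exact hx.2 (h.zero x (h.sub hx.1) h0)

theorem EG.exists_enbh (h : EG S O F) : ∃ U, ENbh S O F U := by
  obtain ⟨L, h1, h2, h3⟩ := exists_compact_between h.cpt h.isOpen fun x hx => hx.1
  have h4 : (⋂ g, S.ac g ⁻¹' interior L) ⊆ L := fun x hx => by
    have := mem_iInter.1 hx 1
    rw [mem_preimage, S.hac.one] at this
    exact interior_subset this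
  refine ⟨⋂ g, S.ac g ⁻¹' interior L,
    isOpen_iInter_of_finite fun g => isOpen_interior.preimage (S.ac g).continuous,
    h1.isBounded.subset h4, (closure_minimal h4 h1.isClosed).trans h3,
    fun x hx h0 => mem_iInter.2 fun g => h2 ⟨h.inv g x hx, ?_⟩,
    fun g x hx => mem_iInter.2 fun k => ?_⟩
  · rw [h.equi g x hx]
    exact S.act_mem_star g h0
  · rw [mem_preimage, ← S.hac.mul]
    exact mem_iInter.1 hx _

theorem ENbh.exists_gen (hG : StGP0) (h : EG S O F) (hU : ENbh S O F U) {ε : ℝ} (hε : 0 < ε) :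
    ∃ F' : W → T × (ι → ℂ), ContDiff ℝ ∞ F' ∧ (∀ g x, F' (S.ac g x) = S.act g (F' x)) ∧
      (∀ x ∈ closure U, ‖F' x - F x‖ < ε) ∧ ∀ x ∈ closure U, F' x ∉ Face ι T := by
  obtain ⟨F', h1, h2, h3, h4⟩ := gp_bad hG S S.hac (compact_closure hU.bdd) (inv_closure hU.inv)
    (fun g x hx => h.free g x (hU.sub hx)) (h.cont.mono hU.sub)
    (fun g x hx => h.equi g x (hU.sub hx)) (n := 1) one_pos (by omega) hε
  refine ⟨F', h1, h2, h3, fun x hx ⟨h5, h6, i, h7⟩ => h4 x hx ?_⟩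
  choose r _ hr using h6
  rw [show F' x = rv T r from Prod.ext h5 (funext hr)]
  refine rv_mem_bad _ {i} (by simp) fun k hk => ?_
  rw [Finset.mem_singleton.1 hk]
  exact_mod_cast (hr i).symm.trans h7

theorem ENbh.repl_of_close (hF : ContinuousOn F O) (hU : ENbh S O F U) : ∃ ε > 0,
    ∀ F' : W → T × (ι → ℂ), Continuous F' → (∀ g x, F' (S.ac g x) = S.act g (F' x)) →
      (∀ x ∈ closure U, ‖F' x - F x‖ < ε) → (∀ x ∈ closure U, F' x ∉ Face ι T) →
      Repl S O F U F' := by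
  obtain ⟨ε, h1, h2⟩ := exists_margin (compact_frontier hU.bdd)
    (hF.mono (frontier_subset_closure.trans hU.sub)) isClosed_star fun x hx => hU.ne hx
  exact ⟨ε, h1, fun F' a1 a2 a3 a4 => ⟨hU.isOpen, hU.bdd, hU.sub, hU.zero, hU.inv,
    a1.continuousOn, fun g x _ => a2 g x,
    fun x hx t ht => h2 x hx _ (norm_seg_left (a3 x (frontier_subset_closure hx)) ht), a4⟩⟩

theorem Repl.germ_Th (h : Repl S O F U F') : Germ (Orth ι ×ˢ U) (S.Th F') := by
  refine S.germ_Th h.isOpen (h.cont.mono subset_closure) ?_ fun x hx => h.gen x (subset_closure hx)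
  refine (Set.ext fun x => ?_ : {x | x ∈ U ∧ F' x ∈ Star ι T} = _) ▸
    (compact_closure h.bdd).of_isClosed_subset
      (h.cont.preimage_isClosed_of_isClosed isClosed_closure isClosed_star) inter_subset_left
  refine ⟨fun hx => ⟨subset_closure hx.1, hx.2⟩, fun hx => ⟨?_, hx.2⟩⟩
  by_contra hn
  have := h.seg x (by rw [h.isOpen.frontier_eq]; exact ⟨hx.1, hn⟩) 1 ⟨zero_le_one, le_rfl⟩
  exact this (by simpa using hx.2)

theorem num_mono (h : Germ (Orth ι ×ˢ O) (S.Th F)) (hU : IsOpen U) (hUO : U ⊆ O)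
    (hz : ∀ x ∈ O, F x ∈ Star ι T → x ∈ U) : S.num U F = S.num O F := by
  refine pdeg_mono h (isOpen_orth.prod hU) (prod_mono le_rfl hUO) fun p hp h0 =>
    ⟨hp.1, hz _ hp.2 ?_⟩
  rw [(S.Th_zero F p).1 h0]
  exact rv_mem_star fun i => (hp.1 i).le

theorem Repl.margin (hF : ContinuousOn F O) (h : Repl S O F U F') : ∃ ε > 0,
    ∀ x ∈ frontier U, ∀ y, ‖y - F x‖ < ε → ∀ t ∈ Icc (0 : ℝ) 1,
      (1 - t) • y + t • F' x ∉ Star ι T := by
  obtain ⟨ε, c1, c2⟩ := exists_margin (isCompact_Icc.prod (compact_frontier h.bdd))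
    (seg_cont (hF.mono (frontier_subset_closure.trans h.sub))
      (h.cont.mono frontier_subset_closure) (Icc 0 1))
    isClosed_star fun q hq => h.seg q.2 hq.2 q.1 hq.1
  exact ⟨ε, c1, fun x hx y hy t ht => c2 (t, x) ⟨ht, hx⟩ _ (norm_seg_move hy ht)⟩

theorem Repl.num_eq (hG : StGP0) (hD : StDiv) (h : EG S O F) (h1 : Repl S O F U F')
    (h2 : Repl S O F U' F'') : ((S.num U F' : ℤ) : ZMod 5) = (S.num U' F'' : ℤ) := by
  have hV : ENbh S O F (U ∪ U') := ⟨h1.isOpen.union h2.isOpen, h1.bdd.union h2.bdd,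
    by rw [closure_union]; exact union_subset h1.sub h2.sub,
    fun x hx h0 => Or.inl (h1.zero x hx h0),
    fun g x hx => hx.elim (fun a => Or.inl (h1.inv g x a)) fun a => Or.inr (h2.inv g x a)⟩
  have hI : IsOpen (U ∩ U') := h1.isOpen.inter h2.isOpen
  obtain ⟨ε₀, a1, a2⟩ := exists_margin ((compact_closure hV.bdd).diff hI)
    (h.cont.mono (sdiff_subset.trans hV.sub)) isClosed_star
    fun x hx h0 => hx.2 ⟨h1.zero x (hV.sub hx.1) h0, h2.zero x (hV.sub hx.1) h0⟩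
  obtain ⟨ε₁, b1, b2⟩ := h1.margin h.cont
  obtain ⟨ε₂, c1, c2⟩ := h2.margin h.cont
  obtain ⟨ε₃, d1, d2⟩ := h1.enbh.repl_of_close h.cont
  obtain ⟨ε₄, e1, e2⟩ := h2.enbh.repl_of_close h.cont
  obtain ⟨G, g1, g2, g3, g4⟩ := hV.exists_gen hG h
    (lt_min a1 (lt_min (lt_min b1 c1) (lt_min d1 e1)))
  simp only [lt_min_iff] at g3
  have s1 : closure U ⊆ closure (U ∪ U') := closure_mono subset_union_left
  have s2 : closure U' ⊆ closure (U ∪ U') := closure_mono subset_union_right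
  have r1 := d2 G g1.continuous g2 (fun x hx => (g3 x (s1 hx)).2.2.1) fun x hx => g4 x (s1 hx)
  have r2 := e2 G g1.continuous g2 (fun x hx => (g3 x (s2 hx)).2.2.2) fun x hx => g4 x (s2 hx)
  have z : ∀ x ∈ closure (U ∪ U'), G x ∈ Star ι T → x ∈ U ∩ U' := fun x hx h0 => by
    by_contra hn
    exact a2 x ⟨hx, hn⟩ _ (g3 x hx).1 h0
  rw [← num_seg hG hD h1.isOpen h1.bdd h1.inv (fun g x hx => h.free g x (h1.sub hx)) r1.cont h1.cont
      r1.equi h1.equi (fun x hx => b2 x hx _ (g3 x (s1 (frontier_subset_closure hx))).2.1.1)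
      r1.gen h1.gen,
    ← num_seg hG hD h2.isOpen h2.bdd h2.inv (fun g x hx => h.free g x (h2.sub hx)) r2.cont h2.cont
      r2.equi h2.equi (fun x hx => c2 x hx _ (g3 x (s2 (frontier_subset_closure hx))).2.1.2)
      r2.gen h2.gen,
    ← num_mono r1.germ_Th hI inter_subset_left fun x hx => z x (s1 (subset_closure hx)),
    ← num_mono r2.germ_Th hI inter_subset_right fun x hx => z x (s2 (subset_closure hx))]

theorem Repl.cnt_eq (hG : StGP0) (hD : StDiv) (h : EG S O F) (h1 : Repl S O F U F') :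
    S.cnt O F = (S.num U F' : ℤ) := by
  have h0 : ∃ q : Set W × (W → T × (ι → ℂ)), Repl S O F q.1 q.2 := ⟨(U, F'), h1⟩
  rw [Setup.cnt, dif_pos h0]
  exact h0.choose_spec.num_eq hG hD h h1

theorem EG.exists_repl (hG : StGP0) (h : EG S O F) {ε : ℝ} (hε : 0 < ε) :
    ∃ U F', Repl S O F U F' ∧ ContDiff ℝ ∞ F' ∧ (∀ g x, F' (S.ac g x) = S.act g (F' x)) ∧
      ∀ x ∈ closure U, ‖F' x - F x‖ < ε := by
  obtain ⟨U, hU⟩ := h.exists_enbh
  obtain ⟨ε₁, a1, a2⟩ := hU.repl_of_close h.cont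
  obtain ⟨G, g1, g2, g3, g4⟩ := hU.exists_gen hG h (lt_min hε a1)
  exact ⟨U, G, a2 G g1.continuous g2 (fun x hx => (g3 x hx).trans_le (min_le_right _ _)) g4, g1,
    g2, fun x hx => (g3 x hx).trans_le (min_le_left _ _)⟩

theorem EG.mono (h : EG S O F) (hU : IsOpen U) (hUO : U ⊆ O) (hi : ∀ g, ∀ x ∈ U, S.ac g x ∈ U)
    (hz : ∀ x ∈ O, F x ∈ Star ι T → x ∈ U) : EG S U F :=
  ⟨hU, h.cont.mono hUO, (Set.ext fun x => ⟨fun hx => ⟨hz x hx.1 hx.2, hx.2⟩,
    fun hx => ⟨hUO hx.1, hx.2⟩⟩ : {x | x ∈ O ∧ F x ∈ Star ι T} =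
      {x | x ∈ U ∧ F x ∈ Star ι T}) ▸ h.cpt, hi,
    fun g x hx => h.equi g x (hUO hx), fun g x hx => h.free g x (hUO hx)⟩

theorem EG.congr (h : EG S O F) (he : ∀ x ∈ O, F' x = F x) : EG S O F' :=
  ⟨h.isOpen, h.cont.congr he, (Set.ext fun x => and_congr_right fun hx => by rw [he x hx] :
    {x | x ∈ O ∧ F x ∈ Star ι T} = {x | x ∈ O ∧ F' x ∈ Star ι T}) ▸ h.cpt, h.inv,
    fun g x hx => by rw [he _ (h.inv g x hx), he x hx, h.equi g x hx], h.free⟩

/-- one of two disjoint invariant open sets that cover the preimage of the star -/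
theorem EG.piece (h : EG S O F) (hU : IsOpen U) (hU' : IsOpen U') (hUO : U ⊆ O)
    (hi : ∀ g, ∀ x ∈ U, S.ac g x ∈ U) (hd : Disjoint U U')
    (hz : ∀ x ∈ O, F x ∈ Star ι T → x ∈ U ∨ x ∈ U') : EG S U F :=
  ⟨hU, h.cont.mono hUO, (Set.ext fun x => ⟨fun hx => ⟨(hz x hx.1.1 hx.1.2).resolve_right hx.2,
    hx.1.2⟩, fun hx => ⟨⟨hUO hx.1, hx.2⟩, disjoint_left.1 hd hx.1⟩⟩ :
      {x | x ∈ O ∧ F x ∈ Star ι T} \ U' = {x | x ∈ U ∧ F x ∈ Star ι T}) ▸ h.cpt.diff hU', hi,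
    fun g x hx => h.equi g x (hUO hx), fun g x hx => h.free g x (hUO hx)⟩

theorem HEG.slice {D : Set (ℝ × W)} {H : ℝ × W → T × (ι → ℂ)} (h : HEG S D H) {t : ℝ}
    (ht : t ∈ Icc (0 : ℝ) 1) : EG S {x | (t, x) ∈ D} fun x => H (t, x) := by
  have hc : Continuous fun x : W => (t, x) := by fun_prop
  refine ⟨h.isOpen.preimage hc, h.cont.comp hc.continuousOn fun x hx => ⟨hx, ht⟩, ?_,
    fun g x hx => h.inv g t ht x hx, fun g x hx => h.equi g t ht x hx,
    fun g x hx => h.free g t ht x hx⟩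
  have h1 : IsCompact ({p | p ∈ D ∧ p.1 ∈ Icc (0 : ℝ) 1 ∧ H p ∈ Star ι T} ∩ {p | p.1 = t}) :=
    h.cpt.inter_right (isClosed_eq continuous_fst continuous_const)
  refine (Set.ext fun x => ?_ : {x | (t, x) ∈ D ∧ H (t, x) ∈ Star ι T} = _) ▸
    h1.image continuous_snd
  constructor
  · exact fun hx => ⟨(t, x), ⟨⟨hx.1, ht, hx.2⟩, rfl⟩, rfl⟩
  · rintro ⟨⟨s, y⟩, ⟨⟨h2, -, h3⟩, h4⟩, rfl⟩
    obtain rfl : s = t := h4
    exact ⟨h2, h3⟩

theorem HEG.near {D : Set (ℝ × W)} {H : ℝ × W → T × (ι → ℂ)} (h : HEG S D H) {t : ℝ}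
    (ht : t ∈ Icc (0 : ℝ) 1) (hU : ENbh S {x | (t, x) ∈ D} (fun x => H (t, x)) U) {η : ℝ}
    (hη : 0 < η) : ∀ᶠ s in 𝓝[Icc (0 : ℝ) 1] t, ENbh S {x | (s, x) ∈ D} (fun x => H (s, x)) U ∧
      ∀ x ∈ closure U, ‖H (s, x) - H (t, x)‖ < η := by
  have hK := compact_closure hU.bdd
  have h1 : ∀ᶠ s in 𝓝 t, ∀ x ∈ closure U, (s, x) ∈ D ∧
      (s ∈ Icc (0 : ℝ) 1 → ‖H (s, x) - H (t, x)‖ < η) := by
    refine hK.eventually_forall_of_forall_eventually fun y hy => ?_
    have hD : ∀ᶠ z in 𝓝 (t, y), z ∈ D := h.isOpen.mem_nhds (hU.sub hy)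
    have hD' : ∀ᶠ z : ℝ × W in 𝓝 (t, y), (t, z.2) ∈ D :=
      (show ContinuousAt (fun z : ℝ × W => (t, z.2)) (t, y) by fun_prop).eventually hD
    have hc := h.cont (t, y) ⟨hU.sub hy, ht⟩
    have c1 := (Metric.tendsto_nhds.1 hc (η / 2) (half_pos hη))
    rw [eventually_nhdsWithin_iff] at c1
    have c2 : ∀ᶠ z : ℝ × W in 𝓝 (t, y), (t, z.2) ∈ {p | p ∈ D ∧ p.1 ∈ Icc (0 : ℝ) 1} →
        dist (H (t, z.2)) (H (t, y)) < η / 2 :=
      (show ContinuousAt (fun z : ℝ × W => (t, z.2)) (t, y) by fun_prop).eventually c1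
    filter_upwards [hD, hD', c1, c2] with z a1 a2 a3 a4
    refine ⟨a1, fun hs => ?_⟩
    have a5 := a3 ⟨a1, hs⟩
    have a6 := a4 ⟨a2, ht⟩
    rw [← dist_eq_norm]
    linarith [dist_triangle_right (H (z.1, z.2)) (H (t, z.2)) (H (t, y))]
  have h2 : IsClosed (Prod.fst '' ({p | p ∈ D ∧ p.1 ∈ Icc (0 : ℝ) 1 ∧ H p ∈ Star ι T} \
      {p | p.2 ∈ U})) :=
    ((h.cpt.diff (hU.isOpen.preimage continuous_snd)).image continuous_fst).isClosed
  have h3 : ∀ᶠ s in 𝓝 t, s ∉ Prod.fst '' ({p | p ∈ D ∧ p.1 ∈ Icc (0 : ℝ) 1 ∧ H p ∈ Star ι T} \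
      {p | p.2 ∈ U}) := by
    refine h2.isOpen_compl.mem_nhds ?_
    rintro ⟨⟨s, y⟩, ⟨⟨a1, -, a2⟩, a3⟩, rfl⟩
    exact a3 (hU.zero y a1 a2)
  filter_upwards [mem_nhdsWithin_of_mem_nhds h1, mem_nhdsWithin_of_mem_nhds h3,
    self_mem_nhdsWithin] with s a1 a2 a3
  refine ⟨⟨hU.isOpen, hU.bdd, fun x hx => (a1 x hx).1, fun x hx h0 => ?_, hU.inv⟩,
    fun x hx => (a1 x hx).2 a3⟩
  by_contra hn
  exact a2 ⟨(s, x), ⟨⟨hx, a3, h0⟩, hn⟩, rfl⟩

theorem cnt_gen (hG : StGP0) (hD : StDiv) (h : EG S O F) (hg : ∀ x ∈ O, F x ∉ Face ι T) :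
    S.cnt O F = (S.num O F : ℤ) := by
  obtain ⟨U, hU⟩ := h.exists_enbh
  have h1 : Repl S O F U F := ⟨hU.isOpen, hU.bdd, hU.sub, hU.zero, hU.inv, h.cont.mono hU.sub,
    fun g x hx => h.equi g x (hU.sub hx), fun x hx t _ => by
      rw [← add_smul, sub_add_cancel, one_smul]
      exact hU.ne hx, fun x hx => hg x (hU.sub hx)⟩
  rw [h1.cnt_eq hG hD h, num_mono (S.germ_Th h.isOpen h.cont h.cpt hg) hU.isOpen
    (subset_closure.trans hU.sub) hU.zero]

theorem stCnt_of (hG : StGP0) (hD : StDiv) : StCnt := by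
  intro ι A W T _ _ _ _ _ _ _ _ _ S
  refine ⟨fun O F h ε hε => h.exists_repl hG hε, fun O F U F' h h1 => h1.cnt_eq hG hD h,
    fun O F h hg => cnt_gen hG hD h hg, fun D H h => ?_, fun O F F' h he => ?_, fun O F h h0 => ?_,
    fun O U F h hU hUO hi hz => ?_, fun O U U' F h hU hU' h1 h2 i1 i2 hd hz => ?_⟩
  · refine const_of_near (n := fun t => S.cnt {x | (t, x) ∈ D} fun x => H (t, x)) fun t ht => ?_
    obtain ⟨U, F', h1, -⟩ := (h.slice ht).exists_repl hG one_pos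
    obtain ⟨ε, a1, a2⟩ := h1.margin (h.slice ht).cont
    filter_upwards [h.near ht h1.enbh a1, self_mem_nhdsWithin] with s hs hs'
    have h2 : Repl S {x | (s, x) ∈ D} (fun x => H (s, x)) U F' :=
      ⟨h1.isOpen, h1.bdd, hs.1.sub, hs.1.zero, h1.inv, h1.cont, h1.equi,
        fun x hx => a2 x hx _ (hs.2 x (frontier_subset_closure hx)), h1.gen⟩
    exact (h2.cnt_eq hG hD (h.slice hs')).trans (h1.cnt_eq hG hD (h.slice ht)).symm
  · obtain ⟨U, G, h1, -⟩ := h.exists_repl hG one_pos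
    have h2 : Repl S O F' U G := ⟨h1.isOpen, h1.bdd, h1.sub,
      fun x hx h0 => h1.zero x hx (he x hx ▸ h0), h1.inv, h1.cont, h1.equi, fun x hx => by
        rw [he x (h1.sub (frontier_subset_closure hx))]
        exact h1.seg x hx, h1.gen⟩
    rw [h2.cnt_eq hG hD (h.congr he), h1.cnt_eq hG hD h]
  · have hg : ∀ x ∈ O, F x ∉ Face ι T := fun x hx h1 => h0 x hx (face_subset_star h1)
    have h1 := S.germ_Th h.isOpen h.cont h.cpt hg
    rw [cnt_gen hG hD h hg, Setup.num, pdeg_empty h1.isOpen h1.cont fun p hp h2 => h0 _ hp.2 ?_,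
      Int.cast_zero]
    rw [(S.Th_zero F p).1 h2]
    exact rv_mem_star fun i => (hp.1 i).le
  · have h0 := h.mono hU hUO hi hz
    obtain ⟨V, G, h1, -⟩ := h0.exists_repl hG one_pos
    have h2 : Repl S O F V G := ⟨h1.isOpen, h1.bdd, h1.sub.trans hUO,
      fun x hx h3 => h1.zero x (hz x hx h3) h3, h1.inv, h1.cont, h1.equi, h1.seg, h1.gen⟩
    rw [h1.cnt_eq hG hD h0, h2.cnt_eq hG hD h]
  · have e1 := h.piece hU hU' h1 i1 hd hz
    have e2 := h.piece hU' hU h2 i2 hd.symm fun x hx h0 => (hz x hx h0).symm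
    obtain ⟨V, n1⟩ := e1.exists_enbh
    obtain ⟨V', n2⟩ := e2.exists_enbh
    have n3 : ENbh S O F (V ∪ V') := ⟨n1.isOpen.union n2.isOpen, n1.bdd.union n2.bdd,
      by rw [closure_union]; exact union_subset (n1.sub.trans h1) (n2.sub.trans h2),
      fun x hx h0 => (hz x hx h0).elim (fun a => Or.inl (n1.zero x a h0))
        fun a => Or.inr (n2.zero x a h0),
      fun g x hx => hx.elim (fun a => Or.inl (n1.inv g x a)) fun a => Or.inr (n2.inv g x a)⟩
    obtain ⟨ε₁, a1, a2⟩ := n1.repl_of_close e1.cont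
    obtain ⟨ε₂, b1, b2⟩ := n2.repl_of_close e2.cont
    obtain ⟨ε₃, c1, c2⟩ := n3.repl_of_close h.cont
    obtain ⟨G, g1, g2, g3, g4⟩ := n3.exists_gen hG h (lt_min (lt_min a1 b1) c1)
    simp only [lt_min_iff] at g3
    have s1 : closure V ⊆ closure (V ∪ V') := closure_mono subset_union_left
    have s2 : closure V' ⊆ closure (V ∪ V') := closure_mono subset_union_right
    have r1 := a2 G g1.continuous g2 (fun x hx => (g3 x (s1 hx)).1.1) fun x hx => g4 x (s1 hx)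
    have r2 := b2 G g1.continuous g2 (fun x hx => (g3 x (s2 hx)).1.2) fun x hx => g4 x (s2 hx)
    have r3 := c2 G g1.continuous g2 (fun x hx => (g3 x hx).2) g4
    rw [r1.cnt_eq hG hD e1, r2.cnt_eq hG hD e2, r3.cnt_eq hG hD h, ← Int.cast_add]
    congr 1
    exact pdeg_add r3.germ_Th r1.germ_Th.isOpen r2.germ_Th.isOpen
      (prod_mono le_rfl subset_union_left) (prod_mono le_rfl subset_union_right)
      (disjoint_left.2 fun p hp hp' => disjoint_left.1 hd (n1.sub (subset_closure hp.2))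
        (n2.sub (subset_closure hp'.2)))
      fun p hp _ => hp.2.elim (fun a => Or.inl ⟨hp.1, a⟩) fun a => Or.inr ⟨hp.1, a⟩

end Vale.Agent.P220Z.Deg
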