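import Vale.Agent.P220Z.Deg.Pdeg

/-!
# The count modulo five of a free equivariant germ: definitions

A finite group `A` acts linearly on `W` and `T` and on copies of `ℂ` indexed by `ι` by characters. A germ
is an equivariant map `F : W → T × (ι → ℂ)` on an open set with free action such that the preimage of
the star `Star` is compact. Its count is the intersection number, modulo five, of a generic
equivariant perturbation with the orthant `0 × (0, ∞) ^ ι`.
-/

open Set Filter Topology Bornology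
open scoped ContDiff

namespace Vale.Agent.P220Z.Deg

open Vale.Agent.P205.TI.Deg

/-- a linear representation -/
structure IsRep {A W : Type} [Group A] [NormedAddCommGroup W] [NormedSpace ℝ W]
    (ac : A → W →L[ℝ] W) : Prop where
  one : ∀ x, ac 1 x = x
  mul : ∀ g h x, ac (g * h) x = ac g (ac h x)

/-- the data of a counting problem -/
structure Setup (ι A W T : Type) [Fintype ι] [Group A] [NormedAddCommGroup W] [NormedSpace ℝ W]
    [NormedAddCommGroup T] [NormedSpace ℝ T] where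
  /-- action on the source -/
  ac : A → W →L[ℝ] W
  /-- action on the target -/
  τ : A → T →L[ℝ] T
  /-- the characters -/
  χ : ι → A → ℂ
  /-- `a i` has order five and is in the kernel of `χ j`, `j ≠ i` -/
  a : ι → A
  /-- the orientation -/
  e : (T × (ι → ℂ)) ≃L[ℝ] ((ι → ℝ) × W)
  hac : IsRep ac
  hτ : IsRep τ
  χ_mul : ∀ i g h, χ i (g * h) = χ i g * χ i h
  χ_pow : ∀ i g, χ i g ^ 5 = 1
  a_pow : ∀ i, a i ^ 5 = 1
  a_ne : ∀ i, a i ≠ 1
  χ_a : ∀ i j, j ≠ i → χ j (a i) = 1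

/-- the five rays -/
def Rays : Set ℂ := {z | ∃ r : ℝ, 0 ≤ r ∧ z ^ 5 = r}

/-- zero in `T`, and a point of the rays in each copy of `ℂ` -/
def Star (ι T : Type) [Zero T] : Set (T × (ι → ℂ)) := {y | y.1 = 0 ∧ ∀ i, y.2 i ∈ Rays}

/-- the boundary of the closed orthant -/
def Face (ι T : Type) [Zero T] : Set (T × (ι → ℂ)) :=
  {y | y.1 = 0 ∧ (∀ i, ∃ r : ℝ, 0 ≤ r ∧ y.2 i = r) ∧ ∃ i, y.2 i = 0}

/-- the open orthant -/
def Orth (ι : Type) : Set (ι → ℝ) := {r | ∀ i, 0 < r i}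

variable {ι A W T : Type} [Fintype ι] [Group A] [NormedAddCommGroup W] [NormedSpace ℝ W]
  [NormedAddCommGroup T] [NormedSpace ℝ T]

/-- the action on `T × (ι → ℂ)` -/
def Setup.act (S : Setup ι A W T) (g : A) (y : T × (ι → ℂ)) : T × (ι → ℂ) :=
  (S.τ g y.1, fun i => S.χ i g * y.2 i)

/-- a free equivariant germ -/
structure EG (S : Setup ι A W T) (O : Set W) (F : W → T × (ι → ℂ)) : Prop where
  isOpen : IsOpen O
  cont : ContinuousOn F O
  cpt : IsCompact {x | x ∈ O ∧ F x ∈ Star ι T}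
  inv : ∀ g, ∀ x ∈ O, S.ac g x ∈ O
  equi : ∀ g, ∀ x ∈ O, F (S.ac g x) = S.act g (F x)
  free : ∀ g, ∀ x ∈ O, S.ac g x = x → g = 1

/-- a homotopy of free equivariant germs with moving domain, for times in `[0, 1]` -/
structure HEG (S : Setup ι A W T) (D : Set (ℝ × W)) (F : ℝ × W → T × (ι → ℂ)) : Prop where
  isOpen : IsOpen D
  cont : ContinuousOn F {p | p ∈ D ∧ p.1 ∈ Icc (0 : ℝ) 1}
  cpt : IsCompact {p | p ∈ D ∧ p.1 ∈ Icc (0 : ℝ) 1 ∧ F p ∈ Star ι T}
  inv : ∀ g, ∀ s ∈ Icc (0 : ℝ) 1, ∀ x, (s, x) ∈ D → (s, S.ac g x) ∈ D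
  equi : ∀ g, ∀ s ∈ Icc (0 : ℝ) 1, ∀ x, (s, x) ∈ D → F (s, S.ac g x) = S.act g (F (s, x))
  free : ∀ g, ∀ s ∈ Icc (0 : ℝ) 1, ∀ x, (s, x) ∈ D → S.ac g x = x → g = 1

/-- the map whose zeros are the intersections with the orthant -/
noncomputable def Setup.Th (S : Setup ι A W T) (F : W → T × (ι → ℂ)) (p : (ι → ℝ) × W) :
    (ι → ℝ) × W :=
  S.e ((F p.2).1, fun i => (F p.2).2 i - p.1 i)

variable [FiniteDimensional ℝ W]

/-- the intersection number with the open orthant -/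
noncomputable def Setup.num (S : Setup ι A W T) (O : Set W) (F : W → T × (ι → ℂ)) : ℤ :=
  pdeg (Orth ι ×ˢ O) (S.Th F)

/-- `F'` on `U` is a generic replacement of the germ `F` on `O`. -/
structure Repl (S : Setup ι A W T) (O : Set W) (F : W → T × (ι → ℂ)) (U : Set W)
    (F' : W → T × (ι → ℂ)) : Prop where
  isOpen : IsOpen U
  bdd : IsBounded U
  sub : closure U ⊆ O
  zero : ∀ x ∈ O, F x ∈ Star ι T → x ∈ U
  inv : ∀ g, ∀ x ∈ U, S.ac g x ∈ U
  cont : ContinuousOn F' (closure U)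
  equi : ∀ g, ∀ x ∈ closure U, F' (S.ac g x) = S.act g (F' x)
  seg : ∀ x ∈ frontier U, ∀ t ∈ Icc (0 : ℝ) 1, (1 - t) • F x + t • F' x ∉ Star ι T
  gen : ∀ x ∈ closure U, F' x ∉ Face ι T

open Classical in
/-- the count modulo five -/
noncomputable def Setup.cnt (S : Setup ι A W T) (O : Set W) (F : W → T × (ι → ℂ)) : ZMod 5 :=
  if h : ∃ q : Set W × (W → T × (ι → ℂ)), Repl S O F q.1 q.2 then
    (S.num h.choose.1 h.choose.2 : ℤ) else 0

/-- general position for free actions -/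
def StGP : Prop :=
  ∀ (A W T : Type) [Group A] [Finite A] [NormedAddCommGroup W] [NormedSpace ℝ W]
    [FiniteDimensional ℝ W] [NormedAddCommGroup T] [NormedSpace ℝ T] [FiniteDimensional ℝ T]
    (ac : A → W →L[ℝ] W) (τ : A → T →L[ℝ] T), IsRep ac → IsRep τ → ∀ K : Set W, IsCompact K →
    (∀ g, ∀ x ∈ K, ac g x ∈ K) → (∀ g, ∀ x ∈ K, ac g x = x → g = 1) → ∀ F : W → T,
    ContinuousOn F K → (∀ g, ∀ x ∈ K, F (ac g x) = τ g (F x)) → ∀ B : Set (W × T), IsClosed B →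
    (∀ g, ∀ p ∈ B, (ac g p.1, τ g p.2) ∈ B) → dimH B < Module.finrank ℝ T → ∀ ε > 0,
    ∃ F' : W → T, ContDiff ℝ ∞ F' ∧ (∀ g x, F' (ac g x) = τ g (F' x)) ∧
      (∀ x ∈ K, ‖F' x - F x‖ < ε) ∧ ∀ x ∈ K, (x, F' x) ∉ B

/-- linear changes in source and target -/
def StLin : Prop :=
  ∀ (X X' : Type) [NormedAddCommGroup X] [NormedSpace ℝ X] [FiniteDimensional ℝ X]
    [NormedAddCommGroup X'] [NormedSpace ℝ X'] [FiniteDimensional ℝ X']
    (L : X ≃L[ℝ] X') (B : X' ≃L[ℝ] X) (O : Set X) (f : X → X), Germ O f →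
    pdeg (B ⁻¹' O) (fun y => L (f (B y))) =
      sg ((B : X' →L[ℝ] X).comp (L : X →L[ℝ] X')).det * pdeg O f

/-- the degree of a free equivariant map for a group of order five is divisible by five -/
def StDiv : Prop :=
  ∀ (X : Type) [NormedAddCommGroup X] [NormedSpace ℝ X] [FiniteDimensional ℝ X]
    (a b : X →L[ℝ] X), a ^ 5 = 1 → b ^ 5 = 1 → ∀ (O : Set X) (f : X → X), Germ O f →
    (∀ x ∈ O, a x ∈ O) → (∀ x ∈ O, a x ≠ x) → (∀ x ∈ O, f (a x) = b (f x)) → (5 : ℤ) ∣ pdeg O f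

/-- the product formula -/
def StProdDeg : Prop :=
  ∀ (X X' : Type) [NormedAddCommGroup X] [NormedSpace ℝ X] [FiniteDimensional ℝ X]
    [NormedAddCommGroup X'] [NormedSpace ℝ X'] [FiniteDimensional ℝ X']
    (O : Set X) (f : X → X) (O' : Set X') (f' : X' → X'), Germ O f → Germ O' f' →
    pdeg (O ×ˢ O') (fun p : X × X' => (f p.1, f' p.2)) = pdeg O f * pdeg O' f'

/-- the degree of a map with finitely many zeros and invertible derivative at the zeros -/
def StLocal : Prop :=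
  ∀ (X : Type) [NormedAddCommGroup X] [NormedSpace ℝ X] [FiniteDimensional ℝ X]
    (O : Set X) (f : X → X) (Z : Finset X) (L : X → X →L[ℝ] X), IsOpen O → ContinuousOn f O →
    (∀ z, z ∈ Z ↔ z ∈ O ∧ f z = 0) → (∀ z ∈ Z, HasFDerivAt f (L z) z ∧ (L z).det ≠ 0) →
    pdeg O f = ∑ z ∈ Z, sg (L z).det

end Vale.Agent.P220Z.Deg
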