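import Vale.Agent.P251.G.BrDeg

/-!
# The degree on bounded open sets of a finite-dimensional space
-/

open Set Filter Topology Bornology
open scoped ContDiff

namespace Vale.Agent.P220Z.Deg

open Vale.Agent.P251.G Vale.Agent.P205.TI.Deg

variable {X : Type} [NormedAddCommGroup X] [NormedSpace ℝ X] [FiniteDimensional ℝ X]

/-- coordinates -/
noncomputable def crd (X : Type) [NormedAddCommGroup X] [NormedSpace ℝ X]
    [FiniteDimensional ℝ X] : X ≃L[ℝ] (Fin (Module.finrank ℝ X) → ℝ) :=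
  (Module.finBasis ℝ X).equivFunL

/-- the real valued degree of a self-map of `X` on a bounded open set -/
noncomputable def dX (f : X → X) (W : Set X) : ℝ :=
  degR (fun y => crd X (f ((crd X).symm y))) ((crd X).symm ⁻¹' W)

theorem open_crd {W : Set X} (h : IsOpen W) : IsOpen ((crd X).symm ⁻¹' W) :=
  h.preimage (crd X).symm.continuous

theorem bdd_crd {W : Set X} (h : IsBounded W) : IsBounded ((crd X).symm ⁻¹' W) :=
  (crd X).symm.antilipschitz.isBounded_preimage h

theorem closure_crd (W : Set X) :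
    closure ((crd X).symm ⁻¹' W) = (crd X).symm ⁻¹' closure W :=
  ((crd X).symm.toHomeomorph.preimage_closure W).symm

theorem frontier_crd (W : Set X) :
    frontier ((crd X).symm ⁻¹' W) = (crd X).symm ⁻¹' frontier W :=
  ((crd X).symm.toHomeomorph.preimage_frontier W).symm

theorem cont_crd {f : X → X} {W : Set X} (h : ContinuousOn f (closure W)) :
    ContinuousOn (fun y => crd X (f ((crd X).symm y))) (closure ((crd X).symm ⁻¹' W)) := by
  rw [closure_crd]
  exact (crd X).continuous.comp_continuousOn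
    (h.comp (crd X).symm.continuous.continuousOn fun _ hy => hy)

theorem compact_closure {W : Set X} (h : IsBounded W) : IsCompact (closure W) :=
  Metric.isCompact_of_isClosed_isBounded isClosed_closure h.closure

theorem compact_frontier {W : Set X} (h : IsBounded W) : IsCompact (frontier W) :=
  (compact_closure h).of_isClosed_subset isClosed_frontier frontier_subset_closure

theorem dX_homotopy {f g : X → X} {W : Set X} (hW : IsOpen W) (hb : IsBounded W)
    (hf : ContinuousOn f (closure W)) (hg : ContinuousOn g (closure W))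
    (h : ∀ x ∈ frontier W, ∀ t ∈ Icc (0 : ℝ) 1, (1 - t) • f x + t • g x ≠ 0) :
    dX f W = dX g W := by
  refine degR_homotopy (open_crd hW) (bdd_crd hb) (cont_crd hf) (cont_crd hg) fun y hy t ht => ?_
  rw [frontier_crd] at hy
  rw [← map_smul, ← map_smul, ← map_add, Ne, map_eq_zero_iff _ (crd X).injective]
  exact h _ hy t ht

theorem dX_sum {f : X → X} {W : Set X} (hW : IsOpen W) (hb : IsBounded W)
    (hf : ContinuousOn f (closure W)) {ι : Type*} (s : Finset ι) {U : ι → Set X}
    (hU : ∀ i ∈ s, IsOpen (U i)) (hUW : ∀ i ∈ s, U i ⊆ W) (hd : (s : Set ι).PairwiseDisjoint U)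
    (h : ∀ x ∈ closure W, f x = 0 → ∃ i ∈ s, x ∈ U i) : dX f W = ∑ i ∈ s, dX f (U i) := by
  refine degR_sum (bdd_crd hb) (open_crd hW) (cont_crd hf) s
    (U := fun i => (crd X).symm ⁻¹' U i) (fun i hi => open_crd (hU i hi))
    (fun i hi => preimage_mono (hUW i hi)) (fun i hi j hj hij => (hd hi hj hij).preimage _)
    fun y hy h0 => ?_
  rw [closure_crd] at hy
  exact h _ hy ((map_eq_zero_iff _ (crd X).injective).1 h0)

theorem dX_excision {f : X → X} {W U : Set X} (hW : IsOpen W) (hb : IsBounded W)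
    (hf : ContinuousOn f (closure W)) (hU : IsOpen U) (hUW : U ⊆ W)
    (h : ∀ x ∈ closure W, f x = 0 → x ∈ U) : dX f W = dX f U := by
  have := dX_sum hW hb hf ({()} : Finset Unit) (U := fun _ => U) (fun _ _ => hU)
    (fun _ _ => hUW) (by simp) (fun x hx h0 => ⟨(), by simp, h x hx h0⟩)
  simpa using this

theorem det_crd {g : X → X} {y : Fin (Module.finrank ℝ X) → ℝ}
    (hg : DifferentiableAt ℝ g ((crd X).symm y)) :
    (fderiv ℝ (fun y => crd X (g ((crd X).symm y))) y).det =
      (fderiv ℝ g ((crd X).symm y)).det := by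
  have h2 := ((crd X).hasFDerivAt (x := g ((crd X).symm y))).comp y
    (hg.hasFDerivAt.comp y ((crd X).symm.hasFDerivAt (x := y)))
  have h1 : fderiv ℝ (fun y => crd X (g ((crd X).symm y))) y = _ := h2.fderiv
  rw [h1]
  exact LinearMap.det_conj (fderiv ℝ g ((crd X).symm y) : X →ₗ[ℝ] X) (crd X).toLinearEquiv

theorem dX_regular {g : X → X} (hg : ContDiff ℝ ∞ g) {W : Set X} (hW : IsOpen W)
    (hb : IsBounded W) (hfr : ∀ x ∈ frontier W, g x ≠ 0)
    (hreg : ∀ x ∈ W, g x = 0 → (fderiv ℝ g x).det ≠ 0) :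
    ∃ Z : Finset X, (∀ z, z ∈ Z ↔ z ∈ W ∧ g z = 0) ∧
      dX g W = ((∑ z ∈ Z, sg (fderiv ℝ g z).det : ℤ) : ℝ) := by
  classical
  have hd : Differentiable ℝ g := hg.differentiable (by simp)
  obtain ⟨Z, hZ, h⟩ := degR_regular (f := fun y => crd X (g ((crd X).symm y)))
    ((crd X).contDiff.comp (hg.comp (crd X).symm.contDiff)) (open_crd hW) (bdd_crd hb)
    (fun y hy h0 => by
      rw [frontier_crd] at hy
      exact hfr _ hy ((map_eq_zero_iff _ (crd X).injective).1 h0))
    (fun y hy h0 => by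
      rw [det_crd (hd _)]
      exact hreg _ hy ((map_eq_zero_iff _ (crd X).injective).1 h0))
  refine ⟨Z.image (crd X).symm, fun z => ?_, ?_⟩
  · rw [Finset.mem_image]
    constructor
    · rintro ⟨y, hy, rfl⟩
      exact ⟨((hZ y).1 hy).1, (map_eq_zero_iff _ (crd X).injective).1 ((hZ y).1 hy).2⟩
    · rintro ⟨h1, h2⟩
      exact ⟨crd X z, (hZ _).2 ⟨by simpa using h1, by simp [h2]⟩, by simp⟩
  · rw [dX, h, Finset.sum_image fun a _ b _ hab => (crd X).symm.injective hab]
    push_cast
    exact Finset.sum_congr rfl fun y _ => by rw [det_crd (hd _)]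

theorem exists_smooth {Y : Type} [NormedAddCommGroup Y] [NormedSpace ℝ Y] [FiniteDimensional ℝ Y]
    {f : X → Y} {K : Set X} (hK : IsCompact K) (hf : ContinuousOn f K) {ε : ℝ} (hε : 0 < ε) :
    ∃ g : X → Y, ContDiff ℝ ∞ g ∧ ∀ x ∈ K, ‖g x - f x‖ < ε := by
  obtain ⟨F, hF⟩ := ContinuousMap.exists_restrict_eq hK.isClosed
    (⟨K.domRestrict f, hf.domRestrict⟩ : C(K, Y))
  obtain ⟨g, hg, hg', -⟩ := F.continuous.exists_contDiff_approx ⊤ (ε := fun _ => ε)
    continuous_const fun _ => hε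
  refine ⟨g, hg, fun x hx => ?_⟩
  have h1 : F x = f x := congrArg (fun k : C(K, Y) => k ⟨x, hx⟩) hF
  rw [← h1, ← dist_eq_norm]
  exact hg' x

/-- smooth approximation with regular zeros -/
theorem exists_regular {f : X → X} {K : Set X} (hK : IsCompact K) (hf : ContinuousOn f K) {ε : ℝ}
    (hε : 0 < ε) : ∃ g : X → X, ContDiff ℝ ∞ g ∧ (∀ x ∈ K, ‖g x - f x‖ < ε) ∧
      ∀ x, g x = 0 → (fderiv ℝ g x).det ≠ 0 := by
  obtain ⟨g, hg, hg'⟩ := exists_smooth hK hf (half_pos hε)
  borelize X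
  have hgd : Differentiable ℝ g := hg.differentiable (by simp)
  have hnull := MeasureTheory.addHaar_image_eq_zero_of_det_fderivWithin_eq_zero
    (MeasureTheory.Measure.addHaar : MeasureTheory.Measure X) (f := g) (f' := fderiv ℝ g)
    (s := {x | (fderiv ℝ g x).det = 0})
    (fun x _ => (hgd x).hasFDerivAt.hasFDerivWithinAt) (fun x hx => hx)
  have hball : 0 < (MeasureTheory.Measure.addHaar : MeasureTheory.Measure X)
      (Metric.ball (0 : X) (ε / 2)) := Metric.measure_ball_pos _ _ (half_pos hε)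
  obtain ⟨v, hv, hv'⟩ : ∃ v ∈ Metric.ball (0 : X) (ε / 2),
      v ∉ g '' {x | (fderiv ℝ g x).det = 0} := by
    by_contra hcon
    push Not at hcon
    have h2 := MeasureTheory.measure_mono
      (μ := (MeasureTheory.Measure.addHaar : MeasureTheory.Measure X))
      (show Metric.ball (0 : X) (ε / 2) ⊆ g '' {x | (fderiv ℝ g x).det = 0} from hcon)
    rw [hnull] at h2
    exact absurd hball (not_lt.2 h2)
  rw [mem_ball_zero_iff] at hv
  refine ⟨fun x => g x - v, hg.sub contDiff_const, fun x hx => ?_, fun x hx h => ?_⟩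
  · have h1 : g x - v - f x = (g x - f x) - v := by abel
    have h2 := norm_sub_le (g x - f x) v
    have h3 := hg' x hx
    show ‖g x - v - f x‖ < ε
    rw [h1]
    linarith
  · rw [fderiv_sub_const] at h
    exact hv' ⟨x, h, sub_eq_zero.1 hx⟩

theorem exists_lower {Y Z : Type} [TopologicalSpace Y] [NormedAddCommGroup Z] {K : Set Y}
    (hK : IsCompact K) {f : Y → Z} (hf : ContinuousOn f K) (h : ∀ x ∈ K, f x ≠ 0) :
    ∃ m > 0, ∀ x ∈ K, m ≤ ‖f x‖ := by
  rcases K.eq_empty_or_nonempty with rfl | hne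
  · exact ⟨1, one_pos, by simp⟩
  · obtain ⟨x, hx, hm⟩ := hK.exists_isMinOn hne hf.norm
    exact ⟨_, norm_pos_iff.2 (h x hx), fun y hy => hm hy⟩

theorem seg_ne {Y : Type} [NormedAddCommGroup Y] [NormedSpace ℝ Y] {a b : Y}
    (h : ‖b - a‖ < ‖a‖) {t : ℝ} (ht : t ∈ Icc (0 : ℝ) 1) : (1 - t) • a + t • b ≠ 0 := by
  intro h0
  have h1 : a = -(t • (b - a)) := by
    rw [eq_neg_iff_add_eq_zero, ← h0, smul_sub, sub_smul, one_smul]
    abel
  have h2 : ‖a‖ = t * ‖b - a‖ := by
    conv_lhs => rw [h1]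
    rw [norm_neg, norm_smul, Real.norm_of_nonneg ht.1]
  nlinarith [ht.2, norm_nonneg (b - a)]

theorem dX_close {f g : X → X} {W : Set X} (hW : IsOpen W) (hb : IsBounded W)
    (hf : ContinuousOn f (closure W)) (hg : ContinuousOn g (closure W))
    (h : ∀ x ∈ frontier W, ‖g x - f x‖ < ‖f x‖) : dX f W = dX g W :=
  dX_homotopy hW hb hf hg fun x hx _ ht => seg_ne (h x hx) ht

end Vale.Agent.P220Z.Deg
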