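import Vale.Agent.P220Z.Deg.All
import Vale.Agent.P220Z.Def.Tool

/-!
# The integer winding number of a label along the zero set
-/

open Set Filter Topology Bornology
open scoped ContDiff

namespace Vale.Agent.P220Z.Deg

open Vale.Agent.P205.TI.Deg Vale.Agent.P220Z.Def

variable {V : Type} [NormedAddCommGroup V] [NormedSpace ℝ V]

/-- the zeros of `Φ` with positive label form a compact set -/
structure WR (O : Set (ℝ × V)) (Φ : ℝ × V → V) (η : ℝ × V → ℂ) : Prop where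
  op : IsOpen O
  cont : ContinuousOn Φ O
  conte : ContinuousOn η O
  cpt : IsCompact {y | y ∈ O ∧ Φ y = 0 ∧ ∃ r : ℝ, 0 < r ∧ η y = r}

/-- the zeros of `Φ` form a compact set on which the label does not vanish -/
structure WG (O : Set (ℝ × V)) (Φ : ℝ × V → V) (η : ℝ × V → ℂ) : Prop where
  op : IsOpen O
  cont : ContinuousOn Φ O
  conte : ContinuousOn η O
  cpt : IsCompact {y | y ∈ O ∧ Φ y = 0}
  ne : ∀ y ∈ O, Φ y = 0 → η y ≠ 0

theorem cpt_pos {X : Type} [TopologicalSpace X] [T2Space X] {K : Set X} (hK : IsCompact K)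
    {η : X → ℂ} (hη : ContinuousOn η K) (hne : ∀ y ∈ K, η y ≠ 0) :
    IsCompact {y | y ∈ K ∧ ∃ r : ℝ, 0 < r ∧ η y = r} := by
  refine SymA.cpt_congr (hK.of_isClosed_subset
    (hη.preimage_isClosed_of_isClosed hK.isClosed isClosed_nonneg) inter_subset_left) fun y => ?_
  constructor
  · rintro ⟨h1, r, h2, h3⟩
    exact ⟨h1, r, h2.lt_of_ne fun h => hne y h1 (by rw [h3, ← h]; simp), h3⟩
  · rintro ⟨h1, r, h2, h3⟩
    exact ⟨h1, r, h2.le, h3⟩

variable {O U : Set (ℝ × V)} {Φ : ℝ × V → V} {η : ℝ × V → ℂ}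

theorem WG.wr (h : WG O Φ η) : WR O Φ η :=
  ⟨h.op, h.cont, h.conte, SymA.cpt_congr (cpt_pos h.cpt (h.conte.mono fun _ hy => hy.1)
    fun y hy => h.ne y hy.1 hy.2) fun _ => and_assoc⟩

theorem WG.label (h : WG O Φ η) {η' : ℝ × V → ℂ} (h1 : ContinuousOn η' O)
    (h2 : ∀ y ∈ O, Φ y = 0 → η' y ≠ 0) : WG O Φ η' := ⟨h.op, h.cont, h1, h.cpt, h2⟩

theorem WR.mono (h : WR O Φ η) (hU : IsOpen U) (hUO : U ⊆ O)
    (hz : ∀ y ∈ O, Φ y = 0 → ∀ r : ℝ, 0 < r → η y = r → y ∈ U) : WR U Φ η :=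
  ⟨hU, h.cont.mono hUO, h.conte.mono hUO, SymA.cpt_congr h.cpt fun y =>
    ⟨fun ⟨h1, h2, r, h3, h4⟩ => ⟨hz y h1 h2 r h3 h4, h2, r, h3, h4⟩, fun hy => ⟨hUO hy.1, hy.2⟩⟩⟩

theorem windMap_zero {y : V × ℂ} :
    windMap Φ η y = 0 ↔ Φ (y.2.im, y.1) = 0 ∧ η (y.2.im, y.1) = y.2.re := by
  rw [windMap, Prod.mk_eq_zero, sub_eq_zero]

theorem isOpen_windDom (h : IsOpen O) : IsOpen (windDom O) :=
  (isOpen_lt (g := fun y : V × ℂ => y.2.re) continuous_const (by fun_prop)).inter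
    (h.preimage (f := fun y : V × ℂ => (y.2.im, y.1)) (by fun_prop))

theorem wind_hgerm {D : Set (ℝ × (ℝ × V))} {F : ℝ × (ℝ × V) → V} {e : ℝ × (ℝ × V) → ℂ}
    (hD : IsOpen D) (hF : ContinuousOn F {p | p ∈ D ∧ p.1 ∈ Icc (0 : ℝ) 1})
    (he : ContinuousOn e {p | p ∈ D ∧ p.1 ∈ Icc (0 : ℝ) 1})
    (hc : IsCompact {p | p ∈ D ∧ p.1 ∈ Icc (0 : ℝ) 1 ∧ F p = 0 ∧ ∃ r : ℝ, 0 < r ∧ e p = r}) :
    HGerm {q : ℝ × (V × ℂ) | q.2 ∈ windDom {y | (q.1, y) ∈ D}}
      fun q => windMap (fun y => F (q.1, y)) (fun y => e (q.1, y)) q.2 := by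
  have c0 : Continuous fun q : ℝ × (V × ℂ) => (q.1, (q.2.2.im, q.2.1)) := by fun_prop
  refine ⟨(isOpen_lt (g := fun q : ℝ × (V × ℂ) => q.2.2.re) continuous_const
    (by fun_prop)).inter (hD.preimage c0), ?_, ?_⟩
  · exact (hF.comp c0.continuousOn fun q hq => ⟨hq.1.2, hq.2⟩).prodMk
      ((he.comp c0.continuousOn fun q hq => ⟨hq.1.2, hq.2⟩).sub (by fun_prop))
  · have c1 : ContinuousOn (fun p : ℝ × (ℝ × V) =>
        ((p.1, (p.2.2, ((e p).re : ℂ) + p.2.1 * Complex.I)) : ℝ × (V × ℂ)))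
        {p | p ∈ D ∧ p.1 ∈ Icc (0 : ℝ) 1} :=
      continuousOn_fst.prodMk ((by fun_prop : Continuous fun p : ℝ × (ℝ × V) =>
        p.2.2).continuousOn.prodMk ((Complex.continuous_ofReal.comp_continuousOn
          (Complex.continuous_re.comp_continuousOn he)).add (by fun_prop)))
    refine SymA.cpt_congr (hc.image_of_continuousOn (c1.mono fun p hp => ⟨hp.1, hp.2.1⟩))
      fun q => ?_
    constructor
    · rintro ⟨⟨s, t, z⟩, ⟨h1, h2, h3, r, h4, h5⟩, rfl⟩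
      refine ⟨⟨by simpa [h5] using h4, by simpa using h1⟩, h2, windMap_zero.2 ?_⟩
      simp [h3, h5]
    · rintro ⟨⟨h1, h2⟩, h3, h4⟩
      obtain ⟨h5, h6⟩ := windMap_zero.1 h4
      refine ⟨(q.1, (q.2.2.im, q.2.1)), ⟨h2, h3, h5, _, h1, h6⟩, ?_⟩
      have h7 : e (q.1, (q.2.2.im, q.2.1)) = q.2.2.re := h6
      simp [h7]

theorem WR.germ (h : WR O Φ η) : Germ (windDom O) (windMap Φ η) := by
  refine (wind_hgerm (D := {p | p.2 ∈ O}) (F := fun p => Φ p.2) (e := fun p => η p.2)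
    (h.op.preimage continuous_snd) (h.cont.comp continuousOn_snd fun _ hp => hp.1)
    (h.conte.comp continuousOn_snd fun _ hp => hp.1) ?_).slice ⟨le_rfl, zero_le_one⟩
  exact SymA.cpt_congr ((isCompact_Icc (a := (0 : ℝ)) (b := 1)).prod h.cpt) fun p =>
    ⟨fun hp => ⟨hp.2.1, hp.1, hp.2.2⟩, fun hp => ⟨hp.2.1, hp.1, hp.2.2⟩⟩

variable [FiniteDimensional ℝ V]

theorem dX_congr {X : Type} [NormedAddCommGroup X] [NormedSpace ℝ X] [FiniteDimensional ℝ X]
    {W : Set X} {f g : X → X} (h : ∀ x ∈ closure W, g x = f x) : dX g W = dX f W := by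
  classical
  have h1 : ∀ y ∈ closure ((crd X).symm ⁻¹' W), g ((crd X).symm y) = f ((crd X).symm y) :=
    fun y hy => h _ (by rwa [closure_crd] at hy)
  have e : P251.G.IsApprox (fun y => crd X (g ((crd X).symm y))) ((crd X).symm ⁻¹' W) =
      P251.G.IsApprox (fun y => crd X (f ((crd X).symm y))) ((crd X).symm ⁻¹' W) := by
    funext k
    refine propext (and_congr_right fun _ => exists_congr fun c => and_congr_right fun _ =>
      and_congr (forall₂_congr fun y hy => ?_) (forall₂_congr fun y hy => ?_))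
    · simp only [h1 y (frontier_subset_closure hy)]
    · simp only [h1 y hy]
  exact congrArg (fun P : ((Fin _ → ℝ) → Fin _ → ℝ) → Prop =>
    if h : ∃ k, P k then J h.choose ((crd X).symm ⁻¹' W) else 0) e

/-- the degree only depends on the values on the open set -/
theorem pdeg_congr' {X : Type} [NormedAddCommGroup X] [NormedSpace ℝ X] [FiniteDimensional ℝ X]
    {O : Set X} {f g : X → X} (hfg : ∀ x ∈ O, g x = f x) : pdeg O g = pdeg O f := by
  classical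
  have e : Nbh O g = Nbh O f := funext fun W => propext
    ⟨fun h => ⟨h.1, h.2, h.3, fun x hx h0 => h.4 x hx (by rwa [hfg x hx])⟩,
      fun h => ⟨h.1, h.2, h.3, fun x hx h0 => h.4 x hx (by rwa [← hfg x hx])⟩⟩
  have e' : pdeg O g = if h : ∃ W, Nbh O f W then ⌊dX g h.choose⌋ else 0 :=
    congrArg (fun P : Set X → Prop => if h : ∃ W, P W then ⌊dX g h.choose⌋ else 0) e
  rw [e', pdeg]
  split_ifs with h
  · rw [dX_congr fun x hx => hfg x (h.choose_spec.sub hx)]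
  · rfl

/-- the integer winding number -/
noncomputable def wN (O : Set (ℝ × V)) (Φ : ℝ × V → V) (η : ℝ × V → ℂ) : ℤ :=
  pdeg (windDom O) (windMap Φ η)

/-- homotopy invariance with moving domain -/
theorem wN_htpy {D : Set (ℝ × (ℝ × V))} {F : ℝ × (ℝ × V) → V} {e : ℝ × (ℝ × V) → ℂ}
    (hD : IsOpen D) (hF : ContinuousOn F {p | p ∈ D ∧ p.1 ∈ Icc (0 : ℝ) 1})
    (he : ContinuousOn e {p | p ∈ D ∧ p.1 ∈ Icc (0 : ℝ) 1})
    (hc : IsCompact {p | p ∈ D ∧ p.1 ∈ Icc (0 : ℝ) 1 ∧ F p = 0 ∧ ∃ r : ℝ, 0 < r ∧ e p = r}) :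
    wN {y | (0, y) ∈ D} (fun y => F (0, y)) (fun y => e (0, y)) =
      wN {y | (1, y) ∈ D} (fun y => F (1, y)) fun y => e (1, y) :=
  pdeg_htpy (wind_hgerm hD hF he hc)

/-- homotopy invariance with fixed domain -/
theorem wN_htpy' (hO : IsOpen O) {F : ℝ × (ℝ × V) → V} {e : ℝ × (ℝ × V) → ℂ}
    (hF : ContinuousOn F (Icc (0 : ℝ) 1 ×ˢ O)) (he : ContinuousOn e (Icc (0 : ℝ) 1 ×ˢ O))
    (hc : IsCompact {p : ℝ × (ℝ × V) | p.2 ∈ O ∧ p.1 ∈ Icc (0 : ℝ) 1 ∧ F p = 0 ∧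
      ∃ r : ℝ, 0 < r ∧ e p = r}) :
    wN O (fun y => F (0, y)) (fun y => e (0, y)) = wN O (fun y => F (1, y)) fun y => e (1, y) :=
  wN_htpy (D := {p | p.2 ∈ O}) (hO.preimage continuous_snd) (hF.mono fun _ hp => ⟨hp.2, hp.1⟩)
    (he.mono fun _ hp => ⟨hp.2, hp.1⟩) hc

theorem wN_congr {Φ' : ℝ × V → V} {η' : ℝ × V → ℂ}
    (he : ∀ y ∈ O, Φ' y = Φ y ∧ η' y = η y) : wN O Φ' η' = wN O Φ η :=
  pdeg_congr' fun y hy => by rw [windMap, windMap, (he _ hy.2).1, (he _ hy.2).2]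

theorem wN_mono (h : WR O Φ η) (hU : IsOpen U) (hUO : U ⊆ O)
    (hz : ∀ y ∈ O, Φ y = 0 → ∀ r : ℝ, 0 < r → η y = r → y ∈ U) : wN U Φ η = wN O Φ η :=
  pdeg_mono h.germ (isOpen_windDom hU) (fun _ hy => ⟨hy.1, hUO hy.2⟩) fun _ hy h0 =>
    ⟨hy.1, hz _ hy.2 (windMap_zero.1 h0).1 _ hy.1 (windMap_zero.1 h0).2⟩

theorem wN_sum (h : WR O Φ η) {κ : Type*} (s : Finset κ) {U : κ → Set (ℝ × V)}
    (hU : ∀ i ∈ s, IsOpen (U i)) (hUO : ∀ i ∈ s, U i ⊆ O) (hd : (s : Set κ).PairwiseDisjoint U)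
    (hz : ∀ y ∈ O, Φ y = 0 → ∀ r : ℝ, 0 < r → η y = r → ∃ i ∈ s, y ∈ U i) :
    wN O Φ η = ∑ i ∈ s, wN (U i) Φ η :=
  pdeg_sum h.germ s (U := fun i => windDom (U i)) (fun i hi => isOpen_windDom (hU i hi))
    (fun i hi _ hy => ⟨hy.1, hUO i hi hy.2⟩)
    (fun _ hi _ hj hij => disjoint_left.2 fun _ hy hy' => disjoint_left.1 (hd hi hj hij) hy.2 hy'.2)
    fun _ hy h0 => by
      obtain ⟨i, hi, h1⟩ := hz _ hy.2 (windMap_zero.1 h0).1 _ hy.1 (windMap_zero.1 h0).2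
      exact ⟨i, hi, hy.1, h1⟩

theorem wN_empty (hO : IsOpen O) (hΦ : ContinuousOn Φ O) (hη : ContinuousOn η O)
    (hz : ∀ y ∈ O, Φ y = 0 → ∀ r : ℝ, 0 < r → η y ≠ r) : wN O Φ η = 0 := by
  have h : WR O Φ η := ⟨hO, hΦ, hη, SymA.cpt_congr isCompact_empty fun y =>
    ⟨fun h => h.elim, fun ⟨h1, h2, r, h3, h4⟩ => hz y h1 h2 r h3 h4⟩⟩
  exact pdeg_empty h.germ.isOpen h.germ.cont fun _ hy h0 =>
    hz _ hy.2 (windMap_zero.1 h0).1 _ hy.1 (windMap_zero.1 h0).2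

/-- a homotopy of labels without zero on the zero set -/
theorem WG.wN_label (h : WG O Φ η) {e : ℝ × (ℝ × V) → ℂ}
    (he : ContinuousOn e (Icc (0 : ℝ) 1 ×ˢ O))
    (hne : ∀ s ∈ Icc (0 : ℝ) 1, ∀ y ∈ O, Φ y = 0 → e (s, y) ≠ 0) :
    wN O Φ (fun y => e (0, y)) = wN O Φ fun y => e (1, y) := by
  refine wN_htpy' h.op (F := fun p => Φ p.2) (h.cont.comp continuousOn_snd fun _ hp => hp.2) he ?_
  refine SymA.cpt_congr (cpt_pos ((isCompact_Icc (a := (0 : ℝ)) (b := 1)).prod h.cpt)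
    (he.mono fun p hp => ⟨hp.1, hp.2.1⟩) fun p hp => hne p.1 hp.1 p.2 hp.2.1 hp.2.2) fun p =>
    ⟨fun hp => ⟨hp.1.2.1, hp.1.1, hp.1.2.2, hp.2⟩, fun hp => ⟨⟨hp.2.1, hp.1, hp.2.2.1⟩, hp.2.2.2⟩⟩

theorem WG.wN_mul (h : WG O Φ η) {c : ℂ} (hc : c ≠ 0) :
    wN O Φ (fun y => c * η y) = wN O Φ η := by
  have := h.wN_label (e := fun p => Complex.exp (p.1 * Complex.log c) * η p.2)
    ((by fun_prop : Continuous fun p : ℝ × (ℝ × V) =>
      Complex.exp (p.1 * Complex.log c)).continuousOn.mul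
      (h.conte.comp continuousOn_snd fun _ hp => hp.2))
    fun s _ y hy h0 => mul_ne_zero (Complex.exp_ne_zero _) (h.ne y hy h0)
  simpa [Complex.exp_log hc] using this.symm

theorem WR.wN_conj (h : WR O Φ η) :
    wN O Φ (fun y => (starRingEnd ℂ) (η y)) = - wN O Φ η := by
  have h1 := stLin _ _ ((ContinuousLinearEquiv.refl ℝ V).prodCongr Complex.conjCLE)
    (ContinuousLinearEquiv.refl ℝ _) _ _ h.germ
  have h2 : (((ContinuousLinearEquiv.refl ℝ (V × ℂ) : V × ℂ →L[ℝ] V × ℂ)).comp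
      (((ContinuousLinearEquiv.refl ℝ V).prodCongr Complex.conjCLE : (V × ℂ) ≃L[ℝ] (V × ℂ)) :
        V × ℂ →L[ℝ] V × ℂ)).det = -1 := by
    have a2 := LinearMap.det_prodMap (LinearMap.id (R := ℝ) (M := V))
      (Complex.conjAe.toLinearMap)
    rw [LinearMap.det_id, one_mul, Complex.det_conjAe] at a2
    exact a2
  rw [h2, sg_neg (by norm_num), neg_one_mul] at h1
  rw [wN, wN, ← h1]
  congr 1
  funext y
  simp [windMap]

theorem WG.wN_pow (h : WG O Φ η) (m : ℕ) : wN O Φ (fun y => η y ^ m) = m * wN O Φ η := by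
  classical
  have hp : WG O Φ fun y => η y ^ m :=
    h.label (h.conte.pow m) fun y hy h0 => pow_ne_zero _ (h.ne y hy h0)
  rcases Nat.eq_zero_or_pos m with rfl | hm
  · rw [← hp.wN_mul (c := -1) (by simp), wN_empty (η := fun y => -1 * η y ^ 0) h.op h.cont
      (continuousOn_const.mul hp.conte), Nat.cast_zero, zero_mul]
    intro y _ _ r hr h1
    have := congrArg Complex.re h1
    simp at this
    linarith
  have hm' : (0 : ℝ) < m := by exact_mod_cast hm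
  have hω := Complex.isPrimitiveRoot_exp m hm.ne'
  set R : Finset ℂ := Polynomial.nthRootsFinset m (1 : ℂ) with hR
  have hR1 : ∀ c ∈ R, c ^ m = 1 := fun c hc => (Polynomial.mem_nthRootsFinset hm 1).1 hc
  have hR0 : ∀ c ∈ R, c ≠ 0 := fun c hc h0 => by simpa [h0, hm.ne'] using hR1 c hc
  have hRn : ∀ c ∈ R, ‖c‖ = 1 := fun c hc => Complex.norm_eq_one_of_pow_eq_one (hR1 c hc) hm.ne'
  obtain ⟨N, hN, hNd⟩ := R.finite_toSet.t2_separation
  set Sc : Set ℂ := Complex.slitPlane ∩ Complex.arg ⁻¹' Ioo (-(Real.pi / m)) (Real.pi / m) with hSc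
  have hSo : IsOpen Sc := Complex.continuousOn_arg.isOpen_inter_preimage Complex.isOpen_slitPlane
    isOpen_Ioo
  set A : ℂ → Set ℂ := fun c => {z | c⁻¹ * z ∈ Sc} ∩ (fun z => z / ‖z‖) ⁻¹' N c with hA
  have hAo : ∀ c, IsOpen (A c) := fun c => by
    refine ContinuousOn.isOpen_inter_preimage (continuousOn_id.div (by fun_prop) fun z hz h0 => ?_)
      (hSo.preimage (by fun_prop)) (hN c).2
    have : z = 0 := by simpa using h0
    exact Complex.slitPlane_ne_zero hz.1 (by simp [this])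
  have hpos : ∀ c ∈ R, ∀ r : ℝ, 0 < r → c * r ∈ A c := fun c hc r hr => by
    refine ⟨?_, ?_⟩
    · show c⁻¹ * (c * r) ∈ Sc
      rw [inv_mul_cancel_left₀ (hR0 c hc)]
      refine ⟨Complex.ofReal_mem_slitPlane.2 hr, ?_⟩
      rw [mem_preimage, Complex.arg_ofReal_of_nonneg hr.le]
      have : 0 < Real.pi / m := div_pos Real.pi_pos hm'
      exact ⟨by linarith, this⟩
    · show c * r / (‖c * (r : ℂ)‖ : ℝ) ∈ N c
      rw [norm_mul, hRn c hc, one_mul, Complex.norm_of_nonneg hr.le,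
        mul_div_cancel_right₀ _ (by exact_mod_cast hr.ne')]
      exact (hN c).1
  have hUo : ∀ c, IsOpen (O ∩ η ⁻¹' A c) := fun c => h.conte.isOpen_inter_preimage h.op (hAo c)
  rw [wN_sum hp.wr R (U := fun c => O ∩ η ⁻¹' A c) (fun c _ => hUo c)
    (fun _ _ => inter_subset_left)
    (fun c hc c' hc' hcc => disjoint_left.2 fun y hy hy' =>
      disjoint_left.1 (hNd hc hc' hcc) hy.2.2 hy'.2.2) ?_]
  · rw [Finset.sum_congr rfl (g := fun _ => wN O Φ η), Finset.sum_const, hR,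
      hω.card_nthRootsFinset, nsmul_eq_mul]
    intro c hc
    have hq : WG O Φ fun y => c⁻¹ * η y := h.label (continuousOn_const.mul h.conte)
      fun y hy h0 => mul_ne_zero (inv_ne_zero (hR0 c hc)) (h.ne y hy h0)
    have hz : ∀ y ∈ O, Φ y = 0 → ∀ r : ℝ, 0 < r → c⁻¹ * η y = r → y ∈ O ∩ η ⁻¹' A c := by
      intro y hy _ r hr h1
      refine ⟨hy, ?_⟩
      rw [mem_preimage, ← mul_inv_cancel_left₀ (hR0 c hc) (η y), h1]
      exact hpos c hc r hr
    have hw := hq.wr.mono (hUo c) inter_subset_left hz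
    have hl : ContinuousOn (fun y => Complex.log (c⁻¹ * η y)) (O ∩ η ⁻¹' A c) :=
      hw.conte.clog fun y hy => hy.2.1.1
    have key := wN_htpy' (hUo c) (F := fun p => Φ p.2)
      (e := fun p => Complex.exp (((1 + p.1 * (m - 1) : ℝ) : ℂ) * Complex.log (c⁻¹ * η p.2)))
      (hw.cont.comp continuousOn_snd fun _ hp => hp.2)
      (((by fun_prop : Continuous fun p : ℝ × (ℝ × V) =>
        ((1 + p.1 * (m - 1) : ℝ) : ℂ)).continuousOn.mul
        (hl.comp continuousOn_snd fun _ hp => hp.2)).cexp) ?_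
    · rw [← h.wN_mul (inv_ne_zero (hR0 c hc)), ← wN_mono hq.wr (hUo c) inter_subset_left hz,
        ← wN_congr (η := fun y => c⁻¹ * η y) (Φ' := Φ) (η' := fun y => Complex.exp (((1 + 0 * (m - 1) : ℝ) : ℂ) *
          Complex.log (c⁻¹ * η y))) fun y hy => ⟨rfl, by
            simp [Complex.exp_log (Complex.slitPlane_ne_zero hy.2.1.1)]⟩, key]
      refine pdeg_congr' fun y hy => ?_
      have e1 : ((1 + 1 * (m - 1) : ℝ) : ℂ) = (m : ℂ) := by push_cast; ring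
      rw [windMap, windMap, e1, Complex.exp_nat_mul,
        Complex.exp_log (Complex.slitPlane_ne_zero hy.2.2.1.1), mul_pow, inv_pow, hR1 c hc,
        inv_one, one_mul]
    · refine SymA.cpt_congr ((isCompact_Icc (a := (0 : ℝ)) (b := 1)).prod hw.cpt) fun p => ?_
      constructor
      · rintro ⟨h1, h2, h3, r, h4, h5⟩
        refine ⟨h2, h1, h3, Real.exp ((1 + p.1 * (m - 1)) * Real.log r), Real.exp_pos _, ?_⟩
        simp only [h5]
        rw [← Complex.ofReal_log h4.le, ← Complex.ofReal_mul, Complex.ofReal_exp]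
      · rintro ⟨h2, h1, h3, r, -, h5⟩
        refine ⟨h1, h2, h3, ‖c⁻¹ * η p.2‖,
          norm_pos_iff.2 (Complex.slitPlane_ne_zero h2.2.1.1), ?_⟩
        have a1 := congrArg Complex.im h5
        rw [Complex.exp_im, Complex.ofReal_im, Complex.re_ofReal_mul, Complex.im_ofReal_mul,
          Complex.log_im] at a1
        obtain ⟨a2, a3⟩ := h2.2.1.2
        have a4 : (1 : ℝ) ≤ m := by exact_mod_cast hm
        have a5 : 1 ≤ 1 + p.1 * (m - 1) := by nlinarith [h1.1]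
        have a6 : 1 + p.1 * (m - 1) ≤ m := by nlinarith [h1.2]
        have a7 : |(c⁻¹ * η p.2).arg| * m < Real.pi := (lt_div_iff₀ hm').1 (abs_lt.2 ⟨a2, a3⟩)
        have a8 : |(1 + p.1 * (m - 1)) * (c⁻¹ * η p.2).arg| < Real.pi := by
          rw [abs_mul, abs_of_pos (by linarith)]
          nlinarith [abs_nonneg (c⁻¹ * η p.2).arg]
        have a9 := (Real.sin_eq_zero_iff_of_lt_of_lt (abs_lt.1 a8).1 (abs_lt.1 a8).2).1
          ((mul_eq_zero.1 a1).resolve_left (Real.exp_pos _).ne')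
        have a10 := (mul_eq_zero.1 a9).resolve_left (by linarith)
        show c⁻¹ * η p.2 = _
        rw [← Complex.norm_mul_exp_arg_mul_I (c⁻¹ * η p.2), a10]
        simp
  · intro y hy h0 r hr h1
    have h2 := h.ne y hy h0
    have h3 : (‖η y‖ : ℂ) ≠ 0 := by simpa using h2
    have h4 : (η y / ‖η y‖) ^ m = 1 := by
      have h5 : ‖η y‖ ^ m = r := by
        rw [← norm_pow, show η y ^ m = r from h1, Complex.norm_of_nonneg hr.le]
      rw [div_pow, ← Complex.ofReal_pow, h5, show η y ^ m = r from h1,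
        div_self (by exact_mod_cast hr.ne')]
    have h6 := (Polynomial.mem_nthRootsFinset hm 1).2 h4
    refine ⟨_, h6, hy, ?_⟩
    have := hpos _ h6 _ (norm_pos_iff.2 h2)
    rwa [div_mul_cancel₀ _ h3] at this

end Vale.Agent.P220Z.Deg
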